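import Vale.Agent.P281.H303.Gen.Push4

/-! P281, project T-V, block V13d (helper303): the image of a prime divisor under a proper map
between manifolds of the same dimension, which is a local isomorphism somewhere on it, is a prime
divisor. -/

open Set Filter Metric Vale.Agent.P281 Vale.Agent.P281.H713 Vale.Agent.P281.H64
open scoped Topology ContDiff Manifold

noncomputable section

namespace Vale.Agent.P281.H303.Gen

open Vale.Agent.P281.H511.Gen hiding pr
open Vale.Agent.P281.H64.Gen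
open Vale.Agent.P281.H150.Gen (pr lst AnIn NoSub SThin)
open Vale.Agent.P281.H64.Thin (IsThinSet)

/-- A hypersurface which contains the image of a prime divisor as a whole. -/
theorem isPrime_of_hyp {n : ℕ} {X X₁ : Type} [TopologicalSpace X] [T2Space X]
    [ChartedSpace (Cm n) X] [IsManifold 𝓘(ℂ, Cm n) ω X] [TopologicalSpace X₁]
    [ChartedSpace (Cm n) X₁] [IsManifold 𝓘(ℂ, Cm n) ω X₁] {u : X₁ → X}
    (hu : ContMDiff 𝓘(ℂ, Cm n) 𝓘(ℂ, Cm n) ω u) {D : Set X₁} (hD : J.IsPrime (Cm n) D)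
    (hc : IsClosed (u '' D))
    (h : ∀ x, ∃ g : X → ℂ, J.HolAt (Cm n) g x ∧ (¬ ∀ᶠ z in 𝓝 x, g z = 0) ∧
      ∀ᶠ z in 𝓝 x, z ∈ u '' D ↔ g z = 0) : J.IsPrime (Cm n) (u '' D) := by
  obtain ⟨w₀, hw₀⟩ := hD.2.2.nonempty
  obtain ⟨g, hg, hg0, hgD⟩ := h (u w₀)
  obtain ⟨x, -, e, he, he0, hde, hev⟩ := exists_smooth hg hg0 hgD (mem_image_of_mem u hw₀.1)
    (N := univ) univ_mem
  obtain ⟨P, hP, hPD, hPe⟩ := irr n X (u '' D) hc h x e he he0 hde hev
  have hx : x ∈ u '' D := hev.self_of_nhds.2 he0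
  obtain ⟨w, hwD, rfl⟩ := hx
  have hPx : ∀ᶠ z in 𝓝 (u w), z ∈ u '' D → z ∈ P := by
    filter_upwards [hev, isLocalEq_mem_iff hPe] with z h1 h2 h3
    exact h2.2 (h1.1 h3)
  have hPw : ∀ᶠ y in 𝓝 w, y ∈ D → y ∈ u ⁻¹' P := by
    filter_upwards [hu.continuous.continuousAt.eventually hPx] with y h1 h2
    exact h1 (mem_image_of_mem u h2)
  obtain ⟨y, hy, hyP⟩ := ((mem_closure_iff_frequently.1
    (subset_closure_sm hD.2.1 hwD)).and_eventually hPw.eventually_nhds).exists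
  have hsub := subset_of_eventually hD (isAnalyticSet_preimage hu (isAnalyticSet_prime hP)) hy hyP
  have heq : u '' D = P := Subset.antisymm (by
    rintro _ ⟨z, hz, rfl⟩
    exact hsub hz) hPD
  rw [heq]
  exact hP

/-- The points where `u` is not a local isomorphism form an analytic set. -/
theorem isAnalyticSet_exc {n : ℕ} {X X₁ : Type} [TopologicalSpace X]
    [ChartedSpace (Cm n) X] [IsManifold 𝓘(ℂ, Cm n) ω X] [TopologicalSpace X₁]
    [ChartedSpace (Cm n) X₁] [IsManifold 𝓘(ℂ, Cm n) ω X₁] {u : X₁ → X}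
    (hu : ContMDiff 𝓘(ℂ, Cm n) 𝓘(ℂ, Cm n) ω u) : IsAnalyticSet (Cm n) (excSet (Cm n) u) := by
  intro x
  set φ := chartAt (Cm n) x with hφ
  set ψ := chartAt (Cm n) (u x) with hψ
  have hx : x ∈ φ.source := mem_chart_source _ x
  have hy : u x ∈ ψ.source := mem_chart_source _ _
  set F := (fun z => ψ (u z)) ∘ φ.symm with hF
  set U : Set X₁ := φ.source ∩ u ⁻¹' ψ.source with hU
  have hUo : IsOpen U := φ.open_source.inter (ψ.open_source.preimage hu.continuous)
  have hol : ∀ z ∈ U, HolV (Cm n) (fun z => ψ (u z)) z := fun z hz =>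
    HolV.comp (E' := Cm n) (h := (ψ : X → Cm n)) (HolV.chart hz.2) (hu z)
  refine ⟨U, Unit, fun _ z => (fderiv ℂ F (φ z)).det, hUo, ⟨hx, hy⟩, ?_, ?_⟩
  · intro _ z hz
    have h1 : ContDiffAt ℂ ω F (φ z) := (hol z hz).rep hz.1
    have h2 : ContDiffAt ℂ ω (fun w => (fderiv ℂ F w).det) (φ z) :=
      ContDiffAt.comp (g := fun A : Cm n →L[ℂ] Cm n => A.det) _
        (contDiff_det (V := Cm n)).contDiffAt (h1.fderiv_right (m := ω) (by simp))
    exact HolV.comp_contDiff (G := fun w => (fderiv ℂ F w).det) h2 (HolV.chart hz.1)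
  · intro z hz
    have h1 := dV_eq_chart (E := Cm n) hz.1 (hol z hz)
    have h2 : dV (Cm n) (fun z => ψ (u z)) z =
        (dV (Cm n) (ψ : X → Cm n) (u z)).comp (dM (Cm n) (Cm n) u z) :=
      dV_comp (E' := Cm n) (h := (ψ : X → Cm n)) (HolV.chart hz.2) (hu z)
    have h3 := congrArg ContinuousLinearMap.det (h2.symm.trans h1)
    rw [clm_det_comp, clm_det_comp] at h3
    have h5 : (dV (Cm n) (ψ : X → Cm n) (u z)).det ≠ 0 := jac_chart_ne_zero hz.2
    have h6 : (dV (Cm n) (φ : X₁ → Cm n) z).det ≠ 0 := jac_chart_ne_zero hz.1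
    have h7 : Function.Bijective (mfderiv 𝓘(ℂ, Cm n) 𝓘(ℂ, Cm n) u z) ↔
        (dM (Cm n) (Cm n) u z).det ≠ 0 := by
      rw [show (dM (Cm n) (Cm n) u z).det =
        LinearMap.det (dM (Cm n) (Cm n) u z : Cm n →ₗ[ℂ] Cm n) from rfl,
        ← isUnit_iff_ne_zero, ← LinearMap.isUnit_iff_isUnit_det, Module.End.isUnit_iff]
      rfl
    show ¬ Function.Bijective (mfderiv 𝓘(ℂ, Cm n) 𝓘(ℂ, Cm n) u z) ↔ _
    rw [h7, not_not]
    constructor
    · intro h _
      rw [h, mul_zero] at h3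
      exact (mul_eq_zero.1 h3.symm).resolve_right h6
    · intro h
      have h8 : (fderiv ℂ F (φ z)).det = 0 := h ()
      rw [h8, zero_mul] at h3
      exact (mul_eq_zero.1 h3).resolve_left h5

/-- **V13d**, in general: `u` is any holomorphic map of a compact manifold to a manifold of the same
dimension, and `D` is not contained in the critical set of `u`. -/
theorem isPrime_image (hdir : DirStmt) (hns : NsStmt) {n : ℕ} {X X₁ : Type} [TopologicalSpace X]
    [T2Space X] [ChartedSpace (Cm n) X] [IsManifold 𝓘(ℂ, Cm n) ω X] [TopologicalSpace X₁]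
    [T2Space X₁] [CompactSpace X₁] [ChartedSpace (Cm n) X₁] [IsManifold 𝓘(ℂ, Cm n) ω X₁]
    {u : X₁ → X} (hu : ContMDiff 𝓘(ℂ, Cm n) 𝓘(ℂ, Cm n) ω u) {D : Set X₁}
    (hD : J.IsPrime (Cm n) D) (hne : ¬ D ⊆ excSet (Cm n) u) : J.IsPrime (Cm n) (u '' D) := by
  rcases n with _ | p
  · exfalso
    obtain ⟨x, -, g, -, hg⟩ := hD.2.2.nonempty
    apply hg
    ext ξ
    rw [Subsingleton.elim ξ 0, map_zero, map_zero]
  · refine isPrime_of_hyp hu hD (hD.1.isCompact.image hu.continuous).isClosed fun x₀ => ?_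
    have h1 := subset_closure_diff hD (isAnalyticSet_exc hu) hne
    refine exists_eq hdir hns hu hD.1 hD.2.1 (h1.trans (closure_mono ?_))
      ⟨_, hD.2.2.nonempty.some_mem.1⟩ x₀
    rintro w ⟨⟨hwD, g, hg, hdg⟩, hwe⟩
    refine ⟨hwD, ⟨g, hg, hdg⟩, ?_⟩
    have h2 : Function.Bijective (mfderiv 𝓘(ℂ, Cm (p + 1)) 𝓘(ℂ, Cm (p + 1)) u w) := by
      by_contra hcon
      exact hwe hcon
    exact h2.1

/-- **V13d** -/
theorem push (hdir : DirStmt) (hns : NsStmt) : PushStmt := by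
  intro n X X₁ _ _ _ _ _ u D hu hD hne
  obtain ⟨⟨_, _, _, _⟩, hu1, hu2, -⟩ := hu
  have : CompactSpace X₁ := by
    rw [← isCompact_univ_iff]
    have h1 := hu2.isCompact_preimage (isCompact_univ (X := X))
    rwa [preimage_univ] at h1
  exact isPrime_image hdir hns hu1 hD hne

end Vale.Agent.P281.H303.Gen
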