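import Vale.Agent.P281.H303.Gen.Local
import Vale.Agent.P281.H511.Gen.Hyp

/-! P281, project T-V, block V6 (helper303): the irreducible component through a smooth point. -/

open Set Filter Metric Vale.Agent.P281 Vale.Agent.P281.H713 Vale.Agent.P281.H64
open scoped Topology ContDiff Manifold

noncomputable section

namespace Vale.Agent.P281.H303.Gen

open Vale.Agent.P281.H511.Gen Vale.Agent.P281.H64.Gen

variable {n : ℕ} {X : Type} [TopologicalSpace X] [ChartedSpace (Cm n) X]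

/-- `e` is a smooth equation of `D` at `y`. -/
def SmEq (D : Set X) (e : X → ℂ) (y : X) : Prop :=
  J.HolAt (Cm n) e y ∧ e y = 0 ∧ J.dif (Cm n) e y ≠ 0 ∧ ∀ᶠ w in 𝓝 y, w ∈ D ↔ e w = 0

/-- The points where `D` is a smooth hypersurface. -/
def Sm (D : Set X) : Set X := {y | ∃ e : X → ℂ, SmEq (n := n) D e y}

theorem Sm_subset (D : Set X) : Sm (n := n) D ⊆ D := by
  rintro y ⟨e, -, h1, -, h2⟩
  exact h2.self_of_nhds.2 h1

variable [IsManifold 𝓘(ℂ, Cm n) ω X]

theorem SmEq.eventually {D : Set X} {e : X → ℂ} {y : X} (h : SmEq (n := n) D e y) :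
    ∀ᶠ w in 𝓝 y, w ∈ D → SmEq (n := n) D e w := by
  obtain ⟨h1, h2, h3, h4⟩ := h
  filter_upwards [holAt_eventually h1, eventually_dif_ne h1 h3, h4, eventually_eventually_nhds.2 h4]
    with w h5 h6 h7 h8 h9
  exact ⟨h5, h7.1 h9, h6, h8⟩

/-- Small connected pieces of `D` near a smooth point. -/
theorem exists_conn {D : Set X} {y : X} (hy : y ∈ Sm (n := n) D) :
    ∃ V : Set X, IsOpen V ∧ y ∈ V ∧ IsPreconnected (D ∩ V) ∧ D ∩ V ⊆ Sm (n := n) D := by
  obtain ⟨e, he⟩ := hy
  obtain ⟨σ, Ψ, hyΨ, hσ, -⟩ := exists_coord he.1 he.2.2.1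
  have h1 : ∀ᶠ w in 𝓝 y, (w ∈ D → SmEq (n := n) D e w) ∧ (w ∈ D ↔ e w = 0) :=
    he.eventually.and he.2.2.2
  have h2 : ∀ᶠ v in 𝓝 (Ψ y), ((Ψ.symm v ∈ D → SmEq (n := n) D e (Ψ.symm v)) ∧
      (Ψ.symm v ∈ D ↔ e (Ψ.symm v) = 0)) ∧ v ∈ Ψ.target :=
    ((Ψ.eventually_nhds' _ hyΨ).2 h1).and (Ψ.open_target.mem_nhds (Ψ.map_source hyΨ))
  obtain ⟨r, hr, hb⟩ := Metric.eventually_nhds_iff_ball.1 h2
  have himg : D ∩ (Ψ.source ∩ Ψ ⁻¹' ball (Ψ y) r) =
      Ψ.symm '' (ball (Ψ y) r ∩ {v : Cm n | v σ = 0}) := by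
    ext w
    constructor
    · rintro ⟨hwD, hwΨ, hwb⟩
      refine ⟨Ψ w, ⟨hwb, ?_⟩, Ψ.left_inv hwΨ⟩
      have h3 := (hb _ hwb).1.2
      rw [Ψ.left_inv hwΨ] at h3
      show Ψ w σ = 0
      rw [hσ w hwΨ]
      exact h3.1 hwD
    · rintro ⟨v, ⟨hvb, hv0⟩, rfl⟩
      have hvt := (hb v hvb).2
      have hvs := Ψ.map_target hvt
      refine ⟨?_, hvs, ?_⟩
      · rw [(hb v hvb).1.2, ← hσ _ hvs, Ψ.right_inv hvt]
        exact hv0
      · rw [mem_preimage, Ψ.right_inv hvt]
        exact hvb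
  refine ⟨Ψ.source ∩ Ψ ⁻¹' ball (Ψ y) r, Ψ.isOpen_inter_preimage isOpen_ball,
    ⟨hyΨ, mem_ball_self hr⟩, ?_, ?_⟩
  · rw [himg]
    refine IsPreconnected.image ?_ _ (Ψ.continuousOn_symm.mono ?_)
    · refine Convex.isPreconnected ?_
      refine (convex_ball _ _).inter ?_
      intro a ha b hb s t _ _ _
      simp only [mem_ofPred_eq, Pi.add_apply, Pi.smul_apply] at ha hb ⊢
      rw [ha, hb, smul_zero, smul_zero, add_zero]
    · rintro v ⟨hv, -⟩
      exact (hb v hv).2
  · rintro w ⟨hwD, hwΨ, hwb⟩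
    have h3 := (hb _ hwb).1.1
    rw [Ψ.left_inv hwΨ] at h3
    exact ⟨e, h3 hwD⟩

/-- A branch is relatively open in `D`. -/
theorem comp_open {D : Set X} {z y : X}
    (hy : y ∈ connectedComponentIn (Sm (n := n) D) z) :
    ∀ᶠ w in 𝓝 y, w ∈ D → w ∈ connectedComponentIn (Sm (n := n) D) z := by
  have hyS : y ∈ Sm (n := n) D := connectedComponentIn_subset _ _ hy
  obtain ⟨V, hVo, hyV, hVc, hVS⟩ := exists_conn hyS
  filter_upwards [hVo.mem_nhds hyV] with w hw hwD
  rw [connectedComponentIn_eq hy]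
  exact hVc.subset_connectedComponentIn ⟨Sm_subset D hyS, hyV⟩ hVS ⟨hwD, hw⟩

/-- A branch is relatively closed in the smooth points of `D`. -/
theorem comp_closed {D : Set X} {z y : X} (hyS : y ∈ Sm (n := n) D)
    (hy : y ∉ connectedComponentIn (Sm (n := n) D) z) :
    ∀ᶠ w in 𝓝 y, w ∉ connectedComponentIn (Sm (n := n) D) z := by
  obtain ⟨V, hVo, hyV, hVc, hVS⟩ := exists_conn hyS
  filter_upwards [hVo.mem_nhds hyV] with w hw hwc
  apply hy
  have hwS : w ∈ Sm (n := n) D := connectedComponentIn_subset _ _ hwc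
  rw [connectedComponentIn_eq hwc]
  exact hVc.subset_connectedComponentIn ⟨Sm_subset D hwS, hw⟩ hVS ⟨Sm_subset D hyS, hyV⟩

/-- Near a point of the branch, the branch is `D`: an equation of `D` is one of its closure. -/
theorem isLocalEq_comp {D : Set X} (hDc : IsClosed D) {z y : X} {e : X → ℂ}
    (hy : y ∈ connectedComponentIn (Sm (n := n) D) z) (he : SmEq (n := n) D e y) :
    J.IsLocalEq (Cm n) (closure (connectedComponentIn (Sm (n := n) D) z)) e y := by
  have hsub : closure (connectedComponentIn (Sm (n := n) D) z) ⊆ D :=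
    closure_minimal ((connectedComponentIn_subset _ _).trans (Sm_subset D)) hDc
  obtain ⟨V, hV, hVo, hyV⟩ := eventually_nhds_iff.1
    ((comp_open hy).and (((holAt_eventually he.1).and (eventually_dif_ne he.1 he.2.2.1)).and
      he.2.2.2))
  refine ⟨V, hVo, hyV, fun w hw => (hV w hw).2.1.1, fun w hw => ?_, ?_⟩
  · rw [← (hV w hw).2.2]
    exact ⟨fun h => hsub h, fun h => subset_closure ((hV w hw).1 h)⟩
  · rintro w ⟨hwP, hwV⟩
    exact subset_closure ⟨hwP, (hV w hwV).2.1.2⟩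

/-- The local equations of the closure of the branch. -/
theorem isLocalEq_closure {D : Set X} {x z : X} {g : X → ℂ} (hg : J.HolAt (Cm n) g x)
    (hg0 : ¬ ∀ᶠ w in 𝓝 x, g w = 0) (hD : ∀ᶠ w in 𝓝 x, w ∈ D ↔ g w = 0) :
    ∃ h, J.IsLocalEq (Cm n) (closure (connectedComponentIn (Sm (n := n) D) z)) h x := by
  set c := connectedComponentIn (Sm (n := n) D) z with hc
  have hcD : c ⊆ D := (connectedComponentIn_subset _ _).trans (Sm_subset D)
  set φ := chartAt (Cm n) x with hφ
  have hx : x ∈ φ.source := mem_chart_source _ x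
  have hcl : ∀ w ∈ φ.source, (w ∈ closure c ↔ φ w ∈ closure (φ.symm ⁻¹' c)) := by
    intro w hw
    rw [mem_closure_iff_frequently, mem_closure_iff_frequently, Filter.Frequently,
      Filter.Frequently, not_iff_not]
    exact (φ.eventually_nhds' (fun w => ¬ w ∈ c) hw).symm
  have htar : ∀ᶠ v in 𝓝 (φ x), v ∈ φ.target := φ.open_target.mem_nhds (φ.map_source hx)
  obtain ⟨H, hH, hH1, hH2⟩ := local_eq (g := g ∘ φ.symm) (x₀ := φ x) (D := φ.symm ⁻¹' D)
    (c := φ.symm ⁻¹' c) ((holAt_iff_chart hx).1 hg) (by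
      intro hcon
      apply hg0
      exact (φ.eventually_nhds' (fun w => g w = 0) hx).1 hcon)
    ((φ.eventually_nhds' (fun w => w ∈ D ↔ g w = 0) hx).2 hD) (preimage_mono hcD) (by
      filter_upwards [htar] with v hv hvc
      have h1 := (φ.eventually_nhds' (fun w => w ∈ D → w ∈ c) (φ.map_target hv)).2 (comp_open hvc)
      rwa [φ.right_inv hv] at h1) (by
      filter_upwards [htar] with v hv hvc e he he0 hde hev
      have hvs := φ.map_target hv
      have heq : ((fun w => e (φ w)) ∘ φ.symm) =ᶠ[𝓝 v] e := by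
        filter_upwards [φ.open_target.mem_nhds hv] with u hu
        show e (φ (φ.symm u)) = e u
        rw [φ.right_inv hu]
      have h1 : J.HolAt (Cm n) (fun w => e (φ w)) (φ.symm v) := by
        rw [holAt_iff_chart hvs, φ.right_inv hv]
        exact he.congr heq.symm
      have h2 : SmEq (n := n) D (fun w => e (φ w)) (φ.symm v) := by
        refine ⟨h1, ?_, ?_, ?_⟩
        · simp only [φ.right_inv hv]
          exact he0
        · rw [dif_ne_iff_chart hvs h1, φ.right_inv hv, heq.fderiv_eq]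
          exact hde
        · refine (φ.eventually_nhds' (fun w => w ∈ D ↔ e (φ w) = 0) hvs).1 ?_
          rw [φ.right_inv hv]
          filter_upwards [hev, φ.open_target.mem_nhds hv] with u hu hut
          rw [φ.right_inv hut]
          exact hu
      have h3 := (φ.eventually_nhds' (fun w => w ∉ c) hvs).2 (comp_closed ⟨_, h2⟩ hvc)
      rwa [φ.right_inv hv] at h3)
  obtain ⟨V, hV, hVo, hxV⟩ := eventually_nhds_iff.1
    (((φ.eventually_nhds _ hx).1 ((hH.eventually_analyticAt.and hH1).and hH2)).and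
      (φ.open_source.mem_nhds hx))
  have heq : ∀ w ∈ φ.source, ((fun w => H (φ w)) ∘ φ.symm) =ᶠ[𝓝 (φ w)] H := by
    intro w hw
    filter_upwards [φ.open_target.mem_nhds (φ.map_source hw)] with u hu
    show H (φ (φ.symm u)) = H u
    rw [φ.right_inv hu]
  have hol : ∀ w ∈ V, J.HolAt (Cm n) (fun w => H (φ w)) w := by
    intro w hw
    rw [holAt_iff_chart (hV w hw).2]
    exact (hV w hw).1.1.1.congr (heq w (hV w hw).2).symm
  refine ⟨fun w => H (φ w), V, hVo, hxV, hol, fun w hw => ?_, ?_⟩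
  · rw [hcl w (hV w hw).2]
    exact (hV w hw).1.1.2
  · rintro w ⟨hwP, hwV⟩
    have hws := (hV w hwV).2
    have h1 := (hV w hwV).1.2 ((hcl w hws).1 hwP)
    rw [mem_closure_iff_frequently] at h1 ⊢
    intro hcon
    apply h1
    have h2 := (φ.eventually_nhds' (fun w => ¬ (w ∈ {z | z ∈ closure c ∧
      J.dif (Cm n) (fun w => H (φ w)) z ≠ 0})) hws).2 hcon
    have h3 : ∀ᶠ u in 𝓝 (φ w), φ.symm u ∈ V := (φ.eventually_nhds' (fun u => u ∈ V) hws).2
      (hVo.mem_nhds hwV)
    filter_upwards [h2, h3, φ.open_target.mem_nhds (φ.map_source hws)] with u h4 h5 h6 h7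
    apply h4
    refine ⟨subset_closure h7.1, ?_⟩
    rw [dif_ne_iff_chart (φ.map_target h6) (hol _ h5), φ.right_inv h6]
    have h8 := heq _ (φ.map_target h6)
    rw [φ.right_inv h6] at h8
    rw [h8.fderiv_eq]
    exact h7.2

end Vale.Agent.P281.H303.Gen

namespace Vale.Agent.P281.H303.Gen

open Vale.Agent.P281.H511.Gen Vale.Agent.P281.H64.Gen

/-- **V6**. -/
theorem irr : IrrStmt := by
  intro n X _ _ _ _ D hDc hD z e he he0 hde hev
  have hz : SmEq (n := n) D e z := ⟨he, he0, hde, hev⟩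
  have hzc : z ∈ connectedComponentIn (Sm (n := n) D) z := mem_connectedComponentIn ⟨e, hz⟩
  refine ⟨closure (connectedComponentIn (Sm (n := n) D) z), ⟨isClosed_closure, fun x => ?_, ?_⟩,
    closure_minimal ((connectedComponentIn_subset _ _).trans (Sm_subset D)) hDc,
    isLocalEq_comp hDc hzc hz⟩
  · obtain ⟨g, hg, hg0, hgD⟩ := hD x
    exact isLocalEq_closure hg hg0 hgD
  · have hsub : connectedComponentIn (Sm (n := n) D) z ⊆
        {x | x ∈ closure (connectedComponentIn (Sm (n := n) D) z) ∧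
          ∃ g, J.IsLocalEq (Cm n) (closure (connectedComponentIn (Sm (n := n) D) z)) g x ∧
            J.dif (Cm n) g x ≠ 0} := by
      intro y hy
      obtain ⟨e', he'⟩ := connectedComponentIn_subset _ _ hy
      exact ⟨subset_closure hy, e', isLocalEq_comp hDc hy he', he'.2.2.1⟩
    refine ⟨⟨z, hsub hzc⟩, ?_⟩
    exact isPreconnected_connectedComponentIn.subset_closure hsub fun x hx => hx.1

end Vale.Agent.P281.H303.Gen
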