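import Vale.Agent.P281.H303.Gen.Push5
import Vale.Agent.P281.H234.Dir
import Vale.Agent.P281.H767.Ns

/-! P281, project T-V, block V13d: Remmert's theorem for prime divisors (helper303, with the pieces
P-DIR of helper234 and P-NS of helper767). -/

open Set Filter Metric Vale.Agent.P281 Vale.Agent.P281.H64
open scoped Topology ContDiff Manifold

noncomputable section

namespace Vale.Agent.P281.H303.Gen

open Vale.Agent.P281.H64.Gen

/-- The image of a prime divisor which is not contained in the critical set is a prime divisor. -/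
theorem isPrime_image' {n : ℕ} {X X₁ : Type} [TopologicalSpace X]
    [T2Space X] [ChartedSpace (Cm n) X] [IsManifold 𝓘(ℂ, Cm n) ω X] [TopologicalSpace X₁]
    [T2Space X₁] [CompactSpace X₁] [ChartedSpace (Cm n) X₁] [IsManifold 𝓘(ℂ, Cm n) ω X₁]
    {u : X₁ → X} (hu : ContMDiff 𝓘(ℂ, Cm n) 𝓘(ℂ, Cm n) ω u) {D : Set X₁}
    (hD : J.IsPrime (Cm n) D) (hne : ¬ D ⊆ excSet (Cm n) u) : J.IsPrime (Cm n) (u '' D) :=
  isPrime_image H234.dir H767.ns hu hD hne

/-- **V13d** -/
theorem pushStmt : PushStmt := push H234.dir H767.ns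

end Vale.Agent.P281.H303.Gen
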