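import Vale.Agent.P281.ISO.Ext3

/-! P281, project T-V, block V6 (helper303): the argument principle, with parameters. -/

open Set Filter Metric Topology Vale.Agent.P281.MF

namespace Vale.Agent.P281.H303.Gen

/-- Division by the zero at `b`. -/
theorem factor_at {f : ℂ → ℂ} {U : Set ℂ} (hU : IsOpen U) (hf : DifferentiableOn ℂ f U) {b : ℂ}
    (hb : b ∈ U) (hne : ¬ ∀ᶠ t in 𝓝 b, f t = 0) :
    ∃ (m : ℕ) (g : ℂ → ℂ), DifferentiableOn ℂ g U ∧ g b ≠ 0 ∧ (∀ t, t ≠ b → f t = (t - b) ^ m * g t) ∧
      (f b = 0 → 1 ≤ m) := by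
  have han : AnalyticAt ℂ f b := hf.analyticAt (hU.mem_nhds hb)
  obtain ⟨m, h, hh, hhb, hfh⟩ := han.exists_eventuallyEq_pow_smul_nonzero_iff.mpr hne
  classical
  refine ⟨m, fun t => if t = b then h b else f t / (t - b) ^ m, ?_, by simpa using hhb, ?_, ?_⟩
  · intro t ht
    apply DifferentiableAt.differentiableWithinAt
    by_cases htb : t = b
    · subst htb
      refine hh.differentiableAt.congr_of_eventuallyEq ?_
      filter_upwards [hfh] with s hs
      by_cases hst : s = t
      · simp [hst]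
      · simp only [if_neg hst, hs, smul_eq_mul]
        rw [mul_div_cancel_left₀ _ (pow_ne_zero _ (sub_ne_zero.2 hst))]
    · have h1 : DifferentiableAt ℂ (fun t => f t / (t - b) ^ m) t :=
        (hf.differentiableAt (hU.mem_nhds ht)).div (by fun_prop)
          (pow_ne_zero _ (sub_ne_zero.2 htb))
      refine h1.congr_of_eventuallyEq ?_
      filter_upwards [isOpen_ne.mem_nhds htb] with s hs
      simp [show s ≠ b from hs]
  · intro t ht
    simp only [if_neg ht]
    rw [mul_div_cancel₀]
    exact pow_ne_zero _ (sub_ne_zero.2 ht)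
  · intro h0
    by_contra hm
    have : m = 0 := by omega
    subst this
    have := hfh.self_of_nhds
    simp only [pow_zero, one_smul] at this
    exact hhb (this ▸ h0)

/-- The argument principle. -/
theorem arg_principle {a : ℂ} {R : ℝ} (hR : 0 < R) {U : Set ℂ} (hU : IsOpen U)
    (hRU : closedBall a R ⊆ U) : ∀ (n : ℕ) (Z : Finset ℂ), Z.card = n → ∀ (f : ℂ → ℂ),
    DifferentiableOn ℂ f U → (∀ t ∈ sphere a R, f t ≠ 0) →
    (∀ t, t ∈ Z ↔ t ∈ ball a R ∧ f t = 0) → ∃ m : ℂ → ℕ, (∀ t ∈ Z, 1 ≤ m t) ∧ ∀ k : ℕ,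
      (∮ t in C(a, R), t ^ k * (deriv f t / f t)) = 2 * Real.pi * Complex.I * ∑ t ∈ Z, m t * t ^ k := by
  intro n
  induction n with
  | zero =>
    intro Z hZ f hf hne hZf
    rw [Finset.card_eq_zero] at hZ
    subst hZ
    refine ⟨fun _ => 0, by simp, fun k => ?_⟩
    rw [Finset.sum_empty, mul_zero]
    have hne' : ∀ t ∈ closedBall a R, f t ≠ 0 := by
      intro t ht h0
      rcases (mem_closedBall.1 ht).lt_or_eq with h | h
      · have := (hZf t).2 ⟨h, h0⟩
        simp at this
      · exact hne t h h0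
    have hd : ∀ t ∈ closedBall a R, DifferentiableAt ℂ (fun t => t ^ k * (deriv f t / f t)) t := by
      intro t ht
      have h1 : AnalyticAt ℂ f t := hf.analyticAt (hU.mem_nhds (hRU ht))
      have h2 : DifferentiableAt ℂ (deriv f) t := h1.deriv.differentiableAt
      exact (by fun_prop : DifferentiableAt ℂ (fun t : ℂ => t ^ k) t).mul
        (h2.div h1.differentiableAt (hne' t ht))
    exact Complex.circleIntegral_eq_zero_of_differentiable_on_off_countable hR.le countable_empty
      (fun t ht => (hd t ht).continuousAt.continuousWithinAt)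
      (fun t ht => hd t (ball_subset_closedBall ht.1))
  | succ n ih =>
    intro Z hZ f hf hne hZf
    obtain ⟨b, hbZ⟩ : Z.Nonempty := by rw [← Finset.card_pos]; omega
    obtain ⟨hb, hfb⟩ := (hZf b).1 hbZ
    have hbU : b ∈ U := hRU (ball_subset_closedBall hb)
    have hnz : ¬ ∀ᶠ t in 𝓝 b, f t = 0 := by
      intro h
      have h1 : AnalyticOnNhd ℂ f (closedBall a R) := fun t ht =>
        hf.analyticAt (hU.mem_nhds (hRU ht))
      have h2 := h1.eqOn_zero_of_preconnected_of_eventuallyEq_zero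
        (convex_closedBall a R).isPreconnected (ball_subset_closedBall hb) h
      obtain ⟨t, ht⟩ : (sphere a R).Nonempty := NormedSpace.sphere_nonempty.2 hR.le
      exact hne t ht (h2 (sphere_subset_closedBall ht))
    obtain ⟨m, g, hg, hgb, hfg, hm⟩ := factor_at hU hf hbU hnz
    have hm1 := hm hfb
    have hfg' : ∀ t, f t = (t - b) ^ m * g t := by
      intro t
      by_cases h : t = b
      · rw [h, hfb, sub_self, zero_pow (by omega), zero_mul]
      · exact hfg t h
    have hsph : ∀ t ∈ sphere a R, t ≠ b := by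
      rintro t ht rfl
      rw [mem_ball] at hb
      rw [mem_sphere] at ht
      linarith
    obtain ⟨m', hm', hint⟩ := ih (Z.erase b) (by rw [Finset.card_erase_of_mem hbZ, hZ]; rfl) g hg
      (fun t ht h0 => hne t ht (by rw [hfg', h0, mul_zero])) (by
        intro t
        rw [Finset.mem_erase, hZf]
        constructor
        · rintro ⟨h1, h2, h3⟩
          refine ⟨h2, ?_⟩
          rw [hfg'] at h3
          exact (mul_eq_zero.1 h3).resolve_left (pow_ne_zero _ (sub_ne_zero.2 h1))
        · rintro ⟨h2, h3⟩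
          refine ⟨?_, h2, by rw [hfg', h3, mul_zero]⟩
          rintro rfl
          exact hgb h3)
    classical
    refine ⟨fun t => if t = b then m else m' t, ?_, fun k => ?_⟩
    · intro t ht
      by_cases h : t = b
      · simpa [h] using hm1
      · simp only [if_neg h]
        exact hm' t (Finset.mem_erase.2 ⟨h, ht⟩)
    · have hgd : ∀ t ∈ closedBall a R, AnalyticAt ℂ g t := fun t ht =>
        hg.analyticAt (hU.mem_nhds (hRU ht))
      have h1 : ∀ t ∈ sphere a R, t ^ k * (deriv f t / f t) =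
          (t - b)⁻¹ * (m * t ^ k) + t ^ k * (deriv g t / g t) := by
        intro t ht
        have h2 : g t ≠ 0 := fun h0 => hne t ht (by rw [hfg', h0, mul_zero])
        have h3 : t - b ≠ 0 := sub_ne_zero.2 (hsph t ht)
        have h4 : deriv f t = m * (t - b) ^ (m - 1) * g t + (t - b) ^ m * deriv g t := by
          have h5 : HasDerivAt (fun t => (t - b) ^ m * g t)
              (m * (t - b) ^ (m - 1) * 1 * g t + (t - b) ^ m * deriv g t) t :=
            (((hasDerivAt_id t).sub_const b).pow m).mul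
              (hgd t (sphere_subset_closedBall ht)).differentiableAt.hasDerivAt
          rw [show f = fun t => (t - b) ^ m * g t from funext hfg', h5.deriv, mul_one]
        rw [h4, hfg' t]
        obtain ⟨m₀, rfl⟩ : ∃ m₀, m = m₀ + 1 := ⟨m - 1, by omega⟩
        rw [Nat.add_sub_cancel, pow_succ]
        field_simp
      rw [circleIntegral.integral_congr hR.le h1]
      have hi1 : CircleIntegrable (fun t => (t - b)⁻¹ * (m * t ^ k)) a R := by
        refine ContinuousOn.circleIntegrable hR.le ?_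
        intro t ht
        have h3 : t - b ≠ 0 := sub_ne_zero.2 (hsph t ht)
        exact (((by fun_prop : ContinuousAt (fun t : ℂ => t - b) t).inv₀ h3).mul
          (by fun_prop : ContinuousAt (fun t : ℂ => (m : ℂ) * t ^ k) t)).continuousWithinAt
      have hi2 : CircleIntegrable (fun t => t ^ k * (deriv g t / g t)) a R := by
        refine ContinuousOn.circleIntegrable hR.le ?_
        intro t ht
        have h2 : g t ≠ 0 := fun h0 => hne t ht (by rw [hfg', h0, mul_zero])
        have h3 := hgd t (sphere_subset_closedBall ht)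
        exact (ContinuousAt.mul (by fun_prop)
          (h3.deriv.continuousAt.div h3.continuousAt h2)).continuousWithinAt
      rw [circleIntegral.integral_add hi1 hi2, hint k]
      have h6 : (∮ t in C(a, R), (t - b)⁻¹ * (m * t ^ k)) = 2 * Real.pi * Complex.I * (m * b ^ k) := by
        have h7 : DiffContOnCl ℂ (fun t : ℂ => (m : ℂ) * t ^ k) (ball a R) :=
          (by fun_prop : Differentiable ℂ (fun t : ℂ => (m : ℂ) * t ^ k)).diffContOnCl
        have h8 := h7.circleIntegral_sub_inv_smul hb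
        simpa [smul_eq_mul] using h8
      rw [h6, ← mul_add]
      congr 1
      rw [← Finset.add_sum_erase Z _ hbZ]
      congr 1
      · simp
      · refine Finset.sum_congr rfl fun t ht => ?_
        simp [(Finset.mem_erase.1 ht).1]

variable {E : Type*} [NormedAddCommGroup E] [NormedSpace ℂ E]

/-- The sum of the `k`-th powers of the zeros `t` of `g (z + t η)` in `ball a ε` (with
multiplicity). -/
noncomputable def psum (g : E → ℂ) (η : E) (a : ℂ) (ε : ℝ) (k : ℕ) (z : E) : ℂ :=
  (2 * Real.pi * Complex.I)⁻¹ *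
    ∮ t in C(a, ε), t ^ k * (fderiv ℂ g (z + t • η) η / g (z + t • η))

theorem psum_eq {g : E → ℂ} {η : E} {a : ℂ} {ε : ℝ} (hε : 0 < ε) {z : E} {U : Set ℂ}
    (hU : IsOpen U) (hεU : closedBall a ε ⊆ U) (h : ∀ t ∈ U, DifferentiableAt ℂ g (z + t • η))
    (hne : ∀ t ∈ sphere a ε, g (z + t • η) ≠ 0) {Z : Finset ℂ}
    (hZ : ∀ t, t ∈ Z ↔ t ∈ ball a ε ∧ g (z + t • η) = 0) :
    ∃ m : ℂ → ℕ, (∀ t ∈ Z, 1 ≤ m t) ∧ ∀ k : ℕ, psum g η a ε k z = ∑ t ∈ Z, m t * t ^ k := by
  have hd : ∀ t ∈ U, HasDerivAt (fun t : ℂ => g (z + t • η)) (fderiv ℂ g (z + t • η) η) t := by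
    intro t ht
    have h1 : HasDerivAt (fun t : ℂ => z + t • η) η t := by
      simpa using ((hasDerivAt_id t).smul_const η).const_add z
    exact (h t ht).hasFDerivAt.comp_hasDerivAt t h1
  obtain ⟨m, hm, hk⟩ := arg_principle hε hU hεU Z.card Z rfl (fun t => g (z + t • η))
    (fun t ht => (hd t ht).differentiableAt.differentiableWithinAt) hne hZ
  refine ⟨m, hm, fun k => ?_⟩
  have h2 := hk k
  have h3 : (∮ t in C(a, ε), t ^ k * (fderiv ℂ g (z + t • η) η / g (z + t • η))) =
      ∮ t in C(a, ε), t ^ k * (deriv (fun t : ℂ => g (z + t • η)) t / g (z + t • η)) := by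
    refine circleIntegral.integral_congr hε.le fun t ht => ?_
    rw [(hd t (hεU (sphere_subset_closedBall ht))).deriv]
  rw [psum, h3, h2, ← mul_assoc, inv_mul_cancel₀ Complex.two_pi_I_ne_zero, one_mul]

theorem psum_diff [FiniteDimensional ℂ E] {g : E → ℂ} {η : E} {a : ℂ} {ε : ℝ} (hε : 0 < ε)
    {U : Set E} (hU : IsOpen U) {W : Set ℂ} (hW : IsOpen W) (hεW : sphere a ε ⊆ W)
    (h : ∀ z ∈ U, ∀ t ∈ W, AnalyticAt ℂ g (z + t • η) ∧ g (z + t • η) ≠ 0) (k : ℕ) :
    DifferentiableOn ℂ (psum g η a ε k) U := by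
  have : CompleteSpace E := FiniteDimensional.complete ℂ E
  refine DifferentiableOn.const_mul ?_ _
  refine differentiableOn_circleIntegral (E := E) (F := ℂ) (c := a) (R := ε) hε.le
    (G := fun p : E × ℂ => p.2 ^ k * (fderiv ℂ g (p.1 + p.2 • η) η / g (p.1 + p.2 • η)))
    (U := U) hU hW hεW ?_
  rintro ⟨z, t⟩ ⟨hz, ht⟩
  obtain ⟨h1, h2⟩ := h z hz t ht
  have hlin : DifferentiableAt ℂ (fun p : E × ℂ => p.1 + p.2 • η) (z, t) := by fun_prop
  have hg : DifferentiableAt ℂ (fun p : E × ℂ => g (p.1 + p.2 • η)) (z, t) :=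
    DifferentiableAt.comp (g := g) (f := fun p : E × ℂ => p.1 + p.2 • η) (z, t)
      h1.differentiableAt hlin
  have hg' : DifferentiableAt ℂ (fun p : E × ℂ => fderiv ℂ g (p.1 + p.2 • η) η) (z, t) := by
    have h3 : DifferentiableAt ℂ (fun p : E × ℂ => fderiv ℂ g (p.1 + p.2 • η)) (z, t) :=
      DifferentiableAt.comp (g := fderiv ℂ g) (f := fun p : E × ℂ => p.1 + p.2 • η) (z, t)
        h1.fderiv.differentiableAt hlin
    exact h3.clm_apply (differentiableAt_const _)
  have hp : DifferentiableAt ℂ (fun p : E × ℂ => p.2 ^ k) (z, t) := by fun_prop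
  have hi : DifferentiableAt ℂ (fun p : E × ℂ => (g (p.1 + p.2 • η))⁻¹) (z, t) := hg.inv h2
  have := hp.mul (hg'.mul hi)
  simp only [div_eq_mul_inv]
  exact this.differentiableWithinAt

end Vale.Agent.P281.H303.Gen
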