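import Vale.Agent.P281.H303.Gen.AP

/-! P281, project T-V, block V6 (helper303): Hankel determinants of power sums count the distinct
points. -/

open Finset Polynomial

namespace Vale.Agent.P281.H303.Gen

/-- The Hankel matrix of the sequence `s`. -/
def hankel (N : ℕ) (s : ℕ → ℂ) : Matrix (Fin N) (Fin N) ℂ := Matrix.of fun i j => s (i + j)

theorem hankel_mulVec {N : ℕ} {Z : Finset ℂ} {m : ℂ → ℕ} {s : ℕ → ℂ}
    (hs : ∀ k, s k = ∑ t ∈ Z, m t * t ^ k) (v : Fin N → ℂ) (i : Fin N) :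
    (hankel N s).mulVec v i = ∑ t ∈ Z, m t * t ^ (i : ℕ) * ∑ j : Fin N, v j * t ^ (j : ℕ) := by
  simp only [Matrix.mulVec, dotProduct, hankel, Matrix.of_apply, hs, Finset.sum_mul, Finset.mul_sum]
  rw [Finset.sum_comm]
  refine Finset.sum_congr rfl fun t _ => Finset.sum_congr rfl fun j _ => ?_
  ring

theorem hankel_det_eq_zero {N : ℕ} {Z : Finset ℂ} {m : ℂ → ℕ} {s : ℕ → ℂ}
    (hs : ∀ k, s k = ∑ t ∈ Z, m t * t ^ k) (hZ : Z.card < N) : (hankel N s).det = 0 := by
  classical
  set q : ℂ[X] := ∏ t ∈ Z, (X - C t) with hq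
  have hqm : q.Monic := monic_prod_of_monic _ _ fun t _ => monic_X_sub_C t
  have hqd : q.natDegree = Z.card := by
    rw [hq, natDegree_prod_of_monic _ _ fun t _ => monic_X_sub_C t]
    simp
  rw [← Matrix.exists_mulVec_eq_zero_iff]
  refine ⟨fun j : Fin N => q.coeff j, ?_, ?_⟩
  · intro h
    have h1 := congrFun h ⟨Z.card, hZ⟩
    simp only [Pi.zero_apply] at h1
    rw [← hqd, hqm.coeff_natDegree] at h1
    exact one_ne_zero h1
  · funext i
    rw [hankel_mulVec hs, Pi.zero_apply]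
    refine Finset.sum_eq_zero fun t ht => ?_
    have h1 : ∑ j : Fin N, q.coeff j * t ^ (j : ℕ) = q.eval t := by
      rw [Fin.sum_univ_eq_sum_range (fun j => q.coeff j * t ^ j),
        ← eval_eq_sum_range' (by rw [hqd]; exact hZ)]
    rw [h1, hq, eval_prod, Finset.prod_eq_zero ht (by simp), mul_zero]

theorem hankel_det_ne_zero {N : ℕ} {Z : Finset ℂ} {m : ℂ → ℕ} {s : ℕ → ℂ}
    (hs : ∀ k, s k = ∑ t ∈ Z, m t * t ^ k) (hm : ∀ t ∈ Z, 1 ≤ m t) (hZ : Z.card = N) :
    (hankel N s).det ≠ 0 := by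
  classical
  intro hdet
  obtain ⟨v, hv0, hv⟩ := Matrix.exists_mulVec_eq_zero_iff.2 hdet
  set q : ℂ[X] := ∑ j : Fin N, C (v j) * X ^ (j : ℕ) with hq
  have hqe : ∀ t, q.eval t = ∑ j : Fin N, v j * t ^ (j : ℕ) := by
    intro t
    simp [hq, eval_finsetSum]
  have hqdeg : q.degree < N := degree_sum_fin_lt _
  -- for every polynomial `p` of degree `< N`
  have hp : ∀ p : ℂ[X], p.natDegree < N → ∑ t ∈ Z, m t * p.eval t * q.eval t = 0 := by
    intro p hpd
    have h1 : ∀ i : ℕ, i < N → ∑ t ∈ Z, (m t : ℂ) * t ^ i * q.eval t = 0 := by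
      intro i hi
      have h2 := congrFun hv ⟨i, hi⟩
      rw [hankel_mulVec hs, Pi.zero_apply] at h2
      rw [← h2]
      exact Finset.sum_congr rfl fun t _ => by rw [hqe]
    calc ∑ t ∈ Z, (m t : ℂ) * p.eval t * q.eval t
        = ∑ t ∈ Z, ∑ i ∈ range N, p.coeff i * ((m t : ℂ) * t ^ i * q.eval t) := by
          refine Finset.sum_congr rfl fun t _ => ?_
          rw [eval_eq_sum_range' hpd, Finset.mul_sum, Finset.sum_mul]
          exact Finset.sum_congr rfl fun i _ => by ring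
      _ = ∑ i ∈ range N, p.coeff i * ∑ t ∈ Z, (m t : ℂ) * t ^ i * q.eval t := by
          rw [Finset.sum_comm]
          exact Finset.sum_congr rfl fun i _ => by rw [Finset.mul_sum]
      _ = 0 := Finset.sum_eq_zero fun i hi => by rw [h1 i (Finset.mem_range.1 hi), mul_zero]
  have hqz : ∀ t ∈ Z, q.eval t = 0 := by
    intro t ht
    set p : ℂ[X] := ∏ t' ∈ Z.erase t, (X - C t') with hpdef
    have hpd : p.natDegree < N := by
      rw [hpdef, natDegree_prod_of_monic _ _ fun t _ => monic_X_sub_C t]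
      simp only [natDegree_X_sub_C, sum_const, smul_eq_mul, mul_one]
      rw [Finset.card_erase_of_mem ht, hZ]
      have : 0 < Z.card := Finset.card_pos.2 ⟨t, ht⟩
      omega
    have h1 := hp p hpd
    rw [Finset.sum_eq_single_of_mem t ht] at h1
    · have h2 : p.eval t ≠ 0 := by
        rw [hpdef, eval_prod]
        refine Finset.prod_ne_zero_iff.2 fun t' ht' => ?_
        simp only [eval_sub, eval_X, eval_C]
        exact sub_ne_zero.2 (Finset.ne_of_mem_erase ht').symm
      have h3 : (m t : ℂ) ≠ 0 := by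
        have := hm t ht
        exact_mod_cast (by omega : m t ≠ 0)
      exact (mul_eq_zero.1 h1).resolve_left (mul_ne_zero h3 h2)
    · intro t' ht' hne
      have : p.eval t' = 0 := by
        rw [hpdef, eval_prod, Finset.prod_eq_zero (Finset.mem_erase.2 ⟨hne, ht'⟩) (by simp)]
      rw [this]
      ring
  have hq0 : q = 0 := by
    refine Polynomial.eq_zero_of_degree_lt_of_eval_finset_eq_zero Z ?_ hqz
    rw [hZ]
    exact hqdeg
  apply hv0
  funext j
  have h1 : q.coeff j = v j := by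
    rw [hq, finsetSum_coeff, Finset.sum_eq_single j]
    · simp
    · intro i _ hij
      rw [coeff_C_mul, coeff_X_pow, if_neg (fun h => hij (Fin.ext h.symm)), mul_zero]
    · simp
  rw [← h1, hq0, coeff_zero, Pi.zero_apply]

end Vale.Agent.P281.H303.Gen
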