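import Vale.Agent.P281.H303.Gen.Roots

/-! P281, project T-V, block V6 (helper303): the local equation of a union of branches. -/

open Set Filter Metric Topology Vale.Agent.P281.MF

namespace Vale.Agent.P281.H303.Gen

set_option linter.unusedSectionVars false

variable {E : Type} [NormedAddCommGroup E] [NormedSpace ℂ E] [FiniteDimensional ℂ E]

open Classical in
/-- The product of the `-t`, `t` a zero of `g (z + t η)` with `z + t η ∈ c`. -/
noncomputable def hp (g : E → ℂ) (η : E) (ρ : ℝ) (c : Set E) (z : E) : ℂ :=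
  ∏ t ∈ (zs g η ρ z).filter (fun t => z + t • η ∈ c), (-t)

namespace Rad

variable {g : E → ℂ} {p : E → Prop} {x₀ η : E} {r ρ c M : ℝ} (h : Rad g p x₀ η r ρ c M)

include h

/-- Where the number of zeros is maximal, `{g = 0}` is smooth and transversal to `η`. -/
theorem smooth {N : ℕ} (hN : ∀ z ∈ ball x₀ r, (zs g η ρ z).card ≤ N) {z₁ : E}
    (hz₁ : z₁ ∈ ball x₀ r) (hc : (zs g η ρ z₁).card = N) {t : ℂ} (ht : t ∈ zs g η ρ z₁) :
    ∃ e : E → ℂ, AnalyticAt ℂ e (z₁ + t • η) ∧ e (z₁ + t • η) = 0 ∧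
      fderiv ℂ e (z₁ + t • η) η = 1 ∧ ∀ᶠ w in 𝓝 (z₁ + t • η), g w = 0 ↔ e w = 0 := by
  classical
  have hρ := h.ρ0
  obtain ⟨τ, hτ, hev⟩ := h.roots hN hz₁ hc
  set w₁ := z₁ + t • η with hw₁
  have hsub : w₁ - t • η = z₁ := by rw [hw₁, add_sub_cancel_right]
  have hlin : Tendsto (fun w : E => w - t • η) (𝓝 w₁) (𝓝 z₁) := by
    have : ContinuousAt (fun w : E => w - t • η) w₁ := by fun_prop
    have h1 := this.tendsto
    rwa [hsub] at h1
  have han : AnalyticAt ℂ (fun w : E => τ t (w - t • η)) w₁ := by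
    have h1 : AnalyticAt ℂ (fun w : E => w - t • η) w₁ :=
      analyticAt_id.sub analyticAt_const
    have h2 : AnalyticAt ℂ (τ t) (w₁ - t • η) := by rw [hsub]; exact (hτ t ht).1
    exact AnalyticAt.fun_comp (g := τ t) (f := fun w : E => w - t • η) h2 h1
  have hea : AnalyticAt ℂ (fun w : E => t - τ t (w - t • η)) w₁ := analyticAt_const.sub han
  refine ⟨fun w => t - τ t (w - t • η), hea, ?_, ?_, ?_⟩
  · simp only [hsub, (hτ t ht).2, sub_self]
  · -- along the line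
    have hline : HasDerivAt (fun s : ℂ => w₁ + s • η) η 0 := by
      simpa using ((hasDerivAt_id (0 : ℂ)).smul_const η).const_add w₁
    have h1 : HasDerivAt (fun s : ℂ => t - τ t (w₁ + s • η - t • η))
        (fderiv ℂ (fun w : E => t - τ t (w - t • η)) w₁ η) 0 := by
      have h2 : HasFDerivAt (fun w : E => t - τ t (w - t • η))
          (fderiv ℂ (fun w : E => t - τ t (w - t • η)) w₁) (w₁ + (0 : ℂ) • η) := by
        rw [zero_smul, add_zero]
        exact hea.differentiableAt.hasFDerivAt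
      exact h2.comp_hasDerivAt (0 : ℂ) hline
    have hz0 : Tendsto (fun s : ℂ => z₁ + s • η) (𝓝 0) (𝓝 z₁) := by
      have : ContinuousAt (fun s : ℂ => z₁ + s • η) 0 := by fun_prop
      have h2 := this.tendsto
      rwa [zero_smul, add_zero] at h2
    have hst : Tendsto (fun s : ℂ => s + τ t (z₁ + s • η)) (𝓝 0) (𝓝 t) := by
      have h2 : Tendsto (τ t) (𝓝 z₁) (𝓝 t) := by
        have := (hτ t ht).1.continuousAt.tendsto
        rwa [(hτ t ht).2] at this
      have h3 : Tendsto (fun s : ℂ => s + τ t (z₁ + s • η)) (𝓝 0) (𝓝 (0 + t)) :=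
        tendsto_id.add (h2.comp hz0)
      rwa [zero_add] at h3
    have hne : ∀ᶠ s : ℂ in 𝓝 0, s + τ t (z₁ + s • η) ∉ ((zs g η ρ z₁).erase t : Finset ℂ) := by
      have h2 : IsOpen (((zs g η ρ z₁).erase t : Finset ℂ) : Set ℂ)ᶜ :=
        (Finset.finite_toSet _).isClosed.isOpen_compl
      exact hst.eventually (h2.mem_nhds (by simp))
    have hsm : ∀ᶠ s : ℂ in 𝓝 0, ‖s‖ ≤ ρ / 2 := by
      have : ∀ᶠ s : ℂ in 𝓝 0, s ∈ ball (0 : ℂ) (ρ / 2) := ball_mem_nhds _ (by positivity)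
      filter_upwards [this] with s hs
      rw [mem_ball_zero_iff] at hs
      exact hs.le
    have hb : ∀ᶠ z in 𝓝 z₁, z ∈ ball x₀ r := isOpen_ball.mem_nhds hz₁
    have h4 : (fun s : ℂ => t - τ t (w₁ + s • η - t • η)) =ᶠ[𝓝 0] fun s => s := by
      filter_upwards [hz0.eventually hev, hz0.eventually hb, hne, hsm] with s h5 h6 h7 h8
      have h9 : w₁ + s • η - t • η = z₁ + s • η := by rw [hw₁]; abel
      rw [h9]
      have h10 : τ t (z₁ + s • η) ∈ zs g η ρ (z₁ + s • η) := by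
        rw [h5.1]
        exact Finset.mem_image_of_mem _ ht
      have h11 := (h.zs_translate hz₁ h6 h8).1 h10
      have h12 : s + τ t (z₁ + s • η) = t := by
        by_contra hcon
        exact h7 (Finset.mem_erase.2 ⟨hcon, h11⟩)
      linear_combination -h12
    have h5 : HasDerivAt (fun s : ℂ => s)
        (fderiv ℂ (fun w : E => t - τ t (w - t • η)) w₁ η) 0 := h1.congr_of_eventuallyEq h4.symm
    exact h5.unique (hasDerivAt_id 0)
  · have hb : ∀ᶠ z in 𝓝 z₁, z ∈ ball x₀ r := isOpen_ball.mem_nhds hz₁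
    have hne : ∀ᶠ z in 𝓝 z₁, ∀ t' ∈ (zs g η ρ z₁).erase t, τ t' z ≠ t := by
      rw [Filter.eventually_all_finset]
      intro t' ht'
      have h1 := hτ t' (Finset.mem_of_mem_erase ht')
      refine h1.1.continuousAt.eventually_ne ?_
      rw [h1.2]
      exact Finset.ne_of_mem_erase ht'
    filter_upwards [hlin.eventually hev, hlin.eventually hb, hlin.eventually hne] with w h1 h2 h3
    have h4 : w = w - t • η + t • η := by rw [sub_add_cancel]
    have h5 : g w = 0 ↔ t ∈ zs g η ρ (w - t • η) := by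
      rw [h.mem_zs h2, ← h4]
      have := ((h.mem_zs hz₁).1 ht).1
      simp [this]
    rw [h5, h1.1, Finset.mem_image]
    constructor
    · rintro ⟨t', ht', h6⟩
      by_cases h7 : t' = t
      · subst h7
        rw [h6, sub_self]
      · exact absurd h6 (h3 t' (Finset.mem_erase.2 ⟨h7, ht'⟩))
    · intro h6
      exact ⟨t, ht, (sub_eq_zero.1 h6).symm⟩

/-- The product over the zeros in `c` is holomorphic where the number of zeros is maximal. -/
theorem hp_analytic {N : ℕ} (hN : ∀ z ∈ ball x₀ r, (zs g η ρ z).card ≤ N) {z₁ : E}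
    (hz₁ : z₁ ∈ ball x₀ r) (hc : (zs g η ρ z₁).card = N) {C : Set E}
    (hcl : ∀ t ∈ zs g η ρ z₁, (z₁ + t • η ∈ C → ∀ᶠ w in 𝓝 (z₁ + t • η), g w = 0 → w ∈ C) ∧
      (z₁ + t • η ∉ C → ∀ᶠ w in 𝓝 (z₁ + t • η), w ∉ C)) :
    AnalyticAt ℂ (hp g η ρ C) z₁ := by
  classical
  obtain ⟨τ, hτ, hev⟩ := h.roots hN hz₁ hc
  have hb : ∀ᶠ z in 𝓝 z₁, z ∈ ball x₀ r := isOpen_ball.mem_nhds hz₁
  have hmem : ∀ᶠ z in 𝓝 z₁, ∀ t ∈ zs g η ρ z₁, (g (z + τ t z • η) = 0 →
      (z + τ t z • η ∈ C ↔ z₁ + t • η ∈ C)) := by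
    rw [Filter.eventually_all_finset]
    intro t ht
    have h1 : Tendsto (fun z => z + τ t z • η) (𝓝 z₁) (𝓝 (z₁ + t • η)) := by
      have h2 : Tendsto (τ t) (𝓝 z₁) (𝓝 t) := by
        have := (hτ t ht).1.continuousAt.tendsto
        rwa [(hτ t ht).2] at this
      exact tendsto_id.add (h2.smul_const η)
    by_cases h3 : z₁ + t • η ∈ C
    · filter_upwards [h1.eventually ((hcl t ht).1 h3)] with z hz h0
      exact ⟨fun _ => h3, fun _ => hz h0⟩
    · filter_upwards [h1.eventually ((hcl t ht).2 h3)] with z hz h0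
      exact ⟨fun h4 => absurd h4 hz, fun h4 => absurd h4 h3⟩
  have heq : hp g η ρ C =ᶠ[𝓝 z₁] fun z =>
      ∏ t ∈ (zs g η ρ z₁).filter (fun t => z₁ + t • η ∈ C), (-τ t z) := by
    filter_upwards [hev, hb, hmem] with z h1 h2 h3
    rw [hp]
    have h4 : (zs g η ρ z).filter (fun t => z + t • η ∈ C) =
        ((zs g η ρ z₁).filter (fun t => z₁ + t • η ∈ C)).image (fun t => τ t z) := by
      ext s
      simp only [Finset.mem_filter, Finset.mem_image]
      constructor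
      · rintro ⟨hs, hsC⟩
        rw [h1.1, Finset.mem_image] at hs
        obtain ⟨t, ht, rfl⟩ := hs
        have h5 : τ t z ∈ zs g η ρ z := by rw [h1.1]; exact Finset.mem_image_of_mem _ ht
        exact ⟨t, ⟨ht, (h3 t ht ((h.mem_zs h2).1 h5).2).1 hsC⟩, rfl⟩
      · rintro ⟨t, ⟨ht, htC⟩, rfl⟩
        have h5 : τ t z ∈ zs g η ρ z := by rw [h1.1]; exact Finset.mem_image_of_mem _ ht
        exact ⟨h5, (h3 t ht ((h.mem_zs h2).1 h5).2).2 htC⟩
    rw [h4, Finset.prod_image]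
    intro a ha b hb hab
    exact h1.2 (Finset.mem_filter.1 ha).1 (Finset.mem_filter.1 hb).1 hab
  refine AnalyticAt.congr ?_ heq.symm
  refine Finset.analyticAt_fun_prod _ fun t ht => ?_
  exact (hτ t (Finset.mem_filter.1 ht).1).1.neg

/-- The points of `{g = 0}` over which the number of zeros is maximal are dense. -/
theorem dense {N : ℕ} (hN : ∀ z ∈ ball x₀ r, (zs g η ρ z).card ≤ N)
    (hN' : ∃ z₁ ∈ ball x₀ r, (zs g η ρ z₁).card = N) {y : E} (hy : y ∈ ball x₀ r) (hgy : g y = 0) :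
    ∃ᶠ w in 𝓝 y, g w = 0 ∧ den g η ρ N w ≠ 0 := by
  classical
  have hρ := h.ρ0
  have h0 : (0 : ℂ) ∈ zs g η ρ y := (h.mem_zs hy).2 ⟨by simpa using hρ.le, by simpa using hgy⟩
  obtain ⟨ε, hε, hερ, hsep⟩ := exists_sep (zs g η ρ y) (show 0 < ρ / 2 by positivity)
  rw [Filter.frequently_iff]
  intro V hV
  obtain ⟨κ, hκ, hκV⟩ := Metric.mem_nhds_iff.1 (inter_mem hV (isOpen_ball.mem_nhds hy))
  obtain ⟨δ, hδ, hδε, hδκ⟩ : ∃ δ > 0, δ ≤ ε ∧ δ * ‖η‖ < κ / 2 := by
    refine ⟨min ε (κ / (4 * (‖η‖ + 1))), by positivity, min_le_left _ _, ?_⟩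
    have h1 := min_le_right ε (κ / (4 * (‖η‖ + 1)))
    have h2 : 0 ≤ ‖η‖ := norm_nonneg _
    calc min ε (κ / (4 * (‖η‖ + 1))) * ‖η‖ ≤ (κ / (4 * (‖η‖ + 1))) * ‖η‖ := by gcongr
      _ = (κ / 4) * (‖η‖ / (‖η‖ + 1)) := by field_simp
      _ ≤ (κ / 4) * 1 := by
          gcongr
          rw [div_le_one (by positivity)]
          linarith
      _ < κ / 2 := by linarith
  have hpers := zero_persists (P := g) (η := η) (z₀ := y) (t₀ := 0) (δ := δ) hδ (by
      intro s hs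
      rw [sub_zero] at hs
      have h1 := (h.an y hy s (by linarith)).1
      exact h1.eventually_analyticAt.mono fun y hy => hy.differentiableAt) (by simpa using hgy) (by
      intro s hs hs0
      rw [sub_zero] at hs
      have h1 : s ∈ zs g η ρ y := (h.mem_zs hy).2 ⟨by linarith, hs0⟩
      have h2 := hsep s h1 0 h0 (by
        rintro rfl
        rw [norm_zero] at hs
        linarith)
      rw [sub_zero] at h2
      linarith)
  have hb : ∀ᶠ z in 𝓝 y, z ∈ ball y (κ / 2) := ball_mem_nhds _ (by positivity)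
  have hb' : ∀ᶠ z in 𝓝 y, z ∈ ball x₀ r := isOpen_ball.mem_nhds hy
  obtain ⟨z, hz1, ⟨t, ht, hgt⟩, hz2, hz3⟩ :=
    ((h.den_frequently hN hN' hy).and_eventually (hpers.and (hb.and hb'))).exists
  rw [sub_zero] at ht
  have hw : z + t • η ∈ ball y κ := by
    rw [mem_ball_iff_norm] at hz2 ⊢
    calc ‖z + t • η - y‖ = ‖(z - y) + t • η‖ := by congr 1; abel
      _ ≤ ‖z - y‖ + ‖t • η‖ := norm_add_le _ _
      _ ≤ ‖z - y‖ + δ * ‖η‖ := by rw [norm_smul]; gcongr
      _ < κ := by linarith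
  obtain ⟨hwV, hwb⟩ := hκV hw
  refine ⟨z + t • η, hwV, hgt, ?_⟩
  rw [h.den_ne_iff hN hwb, h.card_translate hz3 hwb (by linarith), ← h.den_ne_iff hN hz3]
  exact hz1

open Classical in
/-- The value of the product on the line. -/
theorem hp_line {z : E} {s : ℂ} (hz : z ∈ ball x₀ r) (hzs : z + s • η ∈ ball x₀ r)
    (hs : ‖s‖ ≤ ρ / 2) {C : Set E} :
    hp g η ρ C (z + s • η) =
      ∏ t ∈ (zs g η ρ z).filter (fun t => z + t • η ∈ C), (s - t) := by
  classical
  rw [hp]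
  refine Finset.prod_bij (fun a _ => s + a) ?_ ?_ ?_ ?_
  · intro a ha
    rw [Finset.mem_filter] at ha ⊢
    refine ⟨(h.zs_translate hz hzs hs).1 ha.1, ?_⟩
    rw [add_smul, ← add_assoc]
    exact ha.2
  · intro a _ b _ hab
    exact add_left_cancel hab
  · intro b hb
    rw [Finset.mem_filter] at hb
    refine ⟨b - s, ?_, by ring⟩
    rw [Finset.mem_filter]
    refine ⟨(h.zs_translate hz hzs hs).2 (by rw [add_sub_cancel]; exact hb.1), ?_⟩
    rw [sub_smul, add_assoc, add_sub_cancel]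
    exact hb.2
  · intro a _
    ring

end Rad

/-- **The local equation** of the closure of a union `c` of branches of `D = {g = 0}`. -/
theorem local_eq {g : E → ℂ} {x₀ : E} (hg : AnalyticAt ℂ g x₀) (hne : ¬ ∀ᶠ x in 𝓝 x₀, g x = 0)
    {D c : Set E} (hD : ∀ᶠ y in 𝓝 x₀, y ∈ D ↔ g y = 0) (hcD : c ⊆ D)
    (hA : ∀ᶠ y in 𝓝 x₀, y ∈ c → ∀ᶠ w in 𝓝 y, w ∈ D → w ∈ c)
    (hB : ∀ᶠ y in 𝓝 x₀, y ∉ c → ∀ e : E → ℂ, AnalyticAt ℂ e y → e y = 0 → fderiv ℂ e y ≠ 0 →
      (∀ᶠ w in 𝓝 y, w ∈ D ↔ e w = 0) → ∀ᶠ w in 𝓝 y, w ∉ c) :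
    ∃ H : E → ℂ, AnalyticAt ℂ H x₀ ∧ (∀ᶠ y in 𝓝 x₀, y ∈ closure c ↔ H y = 0) ∧
      ∀ᶠ y in 𝓝 x₀, y ∈ closure c → y ∈ closure {w | w ∈ c ∧ fderiv ℂ H w ≠ 0} := by
  classical
  have : CompleteSpace E := FiniteDimensional.complete ℂ E
  obtain ⟨η, r, ρ, c₀, M, h⟩ := exists_rad hg hne
    (p := fun y => (∀ᶠ w in 𝓝 y, w ∈ D ↔ g w = 0) ∧ (y ∈ c → ∀ᶠ w in 𝓝 y, w ∈ D → w ∈ c) ∧
      (y ∉ c → ∀ e : E → ℂ, AnalyticAt ℂ e y → e y = 0 → fderiv ℂ e y ≠ 0 →
      (∀ᶠ w in 𝓝 y, w ∈ D ↔ e w = 0) → ∀ᶠ w in 𝓝 y, w ∉ c))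
    ((eventually_eventually_nhds.2 hD).and (hA.and hB))
  have hρ := h.ρ0
  obtain ⟨N, hN', hN⟩ := h.exists_max
  -- the hypotheses on the ball
  have hp0 : ∀ z ∈ ball x₀ r, (∀ᶠ w in 𝓝 z, w ∈ D ↔ g w = 0) ∧
      (z ∈ c → ∀ᶠ w in 𝓝 z, w ∈ D → w ∈ c) := by
    intro z hz
    have h1 := (h.an z hz 0 (by rw [norm_zero]; positivity)).2
    rw [zero_smul, add_zero] at h1
    exact ⟨h1.1, h1.2.1⟩
  have hanal : ∀ z ∈ ball x₀ r, den g η ρ N z ≠ 0 → AnalyticAt ℂ (hp g η ρ c) z := by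
    intro z hz hz0
    have hcard := (h.den_ne_iff hN hz).1 hz0
    refine h.hp_analytic hN hz hcard fun t ht => ?_
    have hts := h.small_zs hz ht
    obtain ⟨-, h1, h2, h3⟩ := h.an z hz t (by linarith)
    refine ⟨fun h4 => ?_, fun h4 => ?_⟩
    · filter_upwards [h1, h2 h4] with w h5 h6 h7
      exact h6 (h5.2 h7)
    · obtain ⟨e, he1, he2, he3, he4⟩ := h.smooth hN hz hcard ht
      refine h3 h4 e he1 he2 ?_ ?_
      · intro h5
        rw [h5] at he3
        simp at he3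
      · filter_upwards [h1, he4] with w h5 h6
        rw [h5, h6]
  obtain ⟨K, hK⟩ := h.exists_card_le
  have hball : ∀ᶠ z in 𝓝 x₀, z ∈ ball x₀ r := ball_mem_nhds _ h.r0
  obtain ⟨Q, hQ, hQe⟩ := extend_off (h := hp g η ρ c) (Den := den g η ρ N) (x₀ := x₀)
    (h.den_analytic N (mem_ball_self h.r0))
    (by
      intro hcon
      refine h.den_frequently hN hN' (mem_ball_self h.r0) ?_
      simpa using hcon)
    (hball.mono fun z hz hz0 => (hanal z hz hz0).differentiableAt) (by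
      filter_upwards [hball] with z hz hz0
      refine subset_closure ⟨hz0, (1 + ρ) ^ K, ?_⟩
      have : ∀ᶠ w in 𝓝 z, w ∈ ball x₀ r := isOpen_ball.mem_nhds hz
      filter_upwards [this] with w hw _
      rw [hp, norm_prod]
      have hle : ∀ t ∈ (zs g η ρ w).filter (fun t => w + t • η ∈ c), ‖-t‖ ≤ 1 + ρ := by
        intro t ht
        have := ((h.mem_zs hw).1 (Finset.mem_filter.1 ht).1).1
        rw [norm_neg]
        linarith
      refine (Finset.prod_le_prod (fun t _ => norm_nonneg _) hle).trans ?_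
      · rw [Finset.prod_const]
        refine pow_le_pow_right₀ (by linarith) ((Finset.card_filter_le _ _).trans (hK w hw)))
  -- a ball on which everything holds
  obtain ⟨R, hR, hRb⟩ := Metric.eventually_nhds_iff_ball.1
    (hball.and (hQ.eventually_analyticAt.and hQe))
  have hcQ : ∀ w ∈ ball x₀ R, w ∈ c → den g η ρ N w ≠ 0 → Q w = 0 := by
    intro w hw hwc hw0
    obtain ⟨h1, h2, h3⟩ := hRb w hw
    rw [← h3 hw0, hp]
    refine Finset.prod_eq_zero (i := 0) ?_ (by simp)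
    rw [Finset.mem_filter, h.mem_zs h1]
    refine ⟨⟨by simpa using hρ.le, ?_⟩, by simpa using hwc⟩
    rw [zero_smul, add_zero]
    exact (hp0 w h1).1.self_of_nhds.1 (hcD hwc)
  have hdense : ∀ y ∈ ball x₀ R, y ∈ closure c →
      ∃ᶠ w in 𝓝 y, w ∈ ball x₀ R ∧ w ∈ c ∧ den g η ρ N w ≠ 0 := by
    intro y hy hyc
    rw [Filter.frequently_iff]
    intro V hV
    obtain ⟨V', hV'V, hV'o, hyV'⟩ := _root_.mem_nhds_iff.1 (inter_mem hV (isOpen_ball.mem_nhds hy))
    obtain ⟨y', hy'V, hy'c⟩ := mem_closure_iff.1 hyc V' hV'o hyV'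
    have hy'b := (hV'V hy'V).2
    have hy'r := (hRb y' hy'b).1
    have h1 := hp0 y' hy'r
    have hgy' : g y' = 0 := h1.1.self_of_nhds.1 (hcD hy'c)
    have h2 : ∀ᶠ w in 𝓝 y', w ∈ V' := hV'o.mem_nhds hy'V
    obtain ⟨w, ⟨hw1, hw2⟩, hw3, hw4, hw5⟩ := ((h.dense hN hN' hy'r hgy').and_eventually
      (h1.1.and ((h1.2 hy'c).and h2))).exists
    exact ⟨w, (hV'V hw5).1, (hV'V hw5).2, hw4 (hw3.2 hw1), hw2⟩
  refine ⟨Q, hQ, ?_, ?_⟩
  · have : ∀ᶠ y in 𝓝 x₀, y ∈ ball x₀ R := ball_mem_nhds _ hR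
    filter_upwards [this] with y hy
    obtain ⟨hyr, hQy, hQey⟩ := hRb y hy
    constructor
    · intro hyc
      by_contra h0
      obtain ⟨w, ⟨hw1, hw2, hw3⟩, hw4⟩ := ((hdense y hy hyc).and_eventually
        (hQy.continuousAt.eventually_ne h0)).exists
      exact hw4 (hcQ w hw1 hw2 hw3)
    · intro h0
      rw [Metric.mem_closure_iff]
      intro κ hκ
      -- a small `ε`
      obtain ⟨ε, hε, hε1, hεκ⟩ : ∃ ε > 0, ε < 1 ∧ ε * ‖η‖ < κ / 2 := by
        refine ⟨min (1 / 2) (κ / (4 * (‖η‖ + 1))), by positivity,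
          (min_le_left _ _).trans_lt (by norm_num), ?_⟩
        have h1 := min_le_right (1 / 2) (κ / (4 * (‖η‖ + 1)))
        have h2 : 0 ≤ ‖η‖ := norm_nonneg _
        calc min (1 / 2) (κ / (4 * (‖η‖ + 1))) * ‖η‖ ≤ (κ / (4 * (‖η‖ + 1))) * ‖η‖ := by gcongr
          _ = (κ / 4) * (‖η‖ / (‖η‖ + 1)) := by field_simp
          _ ≤ (κ / 4) * 1 := by
              gcongr
              rw [div_le_one (by positivity)]
              linarith
          _ < κ / 2 := by linarith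
      have h1 : ∀ᶠ z in 𝓝 y, ‖Q z‖ < ε ^ K := by
        refine hQy.continuousAt.norm.eventually_lt_const ?_
        simp only [h0, norm_zero]
        positivity
      have h2 : ∀ᶠ z in 𝓝 y, z ∈ ball y (κ / 2) := ball_mem_nhds _ (by positivity)
      have h3 : ∀ᶠ z in 𝓝 y, z ∈ ball x₀ R := isOpen_ball.mem_nhds hy
      obtain ⟨z, hz0, hz1, hz2, hz3⟩ := ((h.den_frequently hN hN' hyr).and_eventually
        (h1.and (h2.and h3))).exists
      obtain ⟨hzr, -, hQz⟩ := hRb z hz3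
      rw [← hQz hz0, hp, norm_prod] at hz1
      obtain ⟨t, ht, htε⟩ : ∃ t ∈ (zs g η ρ z).filter (fun t => z + t • η ∈ c), ‖t‖ < ε := by
        by_contra hcon
        push Not at hcon
        have h4 : ε ^ K ≤ ∏ t ∈ (zs g η ρ z).filter (fun t => z + t • η ∈ c), ‖-t‖ := by
          calc ε ^ K ≤ ε ^ ((zs g η ρ z).filter (fun t => z + t • η ∈ c)).card :=
                pow_le_pow_of_le_one hε.le hε1.le ((Finset.card_filter_le _ _).trans (hK z hzr))
            _ = ∏ t ∈ (zs g η ρ z).filter (fun t => z + t • η ∈ c), ε := by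
                rw [Finset.prod_const]
            _ ≤ _ := by
                refine Finset.prod_le_prod (fun t _ => hε.le) fun t ht => ?_
                rw [norm_neg]
                exact hcon t ht
        linarith
      refine ⟨z + t • η, (Finset.mem_filter.1 ht).2, ?_⟩
      rw [mem_ball_iff_norm] at hz2
      rw [dist_comm, dist_eq_norm]
      calc ‖z + t • η - y‖ = ‖(z - y) + t • η‖ := by congr 1; abel
        _ ≤ ‖z - y‖ + ‖t • η‖ := norm_add_le _ _
        _ ≤ ‖z - y‖ + ε * ‖η‖ := by rw [norm_smul]; gcongr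
        _ < κ := by linarith
  · have : ∀ᶠ y in 𝓝 x₀, y ∈ ball x₀ R := ball_mem_nhds _ hR
    filter_upwards [this] with y hy hyc
    rw [mem_closure_iff_frequently]
    refine (hdense y hy hyc).mono ?_
    rintro w ⟨hw, hwc, hw0⟩
    refine ⟨hwc, fun hd => ?_⟩
    obtain ⟨hwr, hQw, -⟩ := hRb w hw
    -- the derivative along the line
    have hline : HasDerivAt (fun s : ℂ => w + s • η) η 0 := by
      simpa using ((hasDerivAt_id (0 : ℂ)).smul_const η).const_add w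
    have h1 : HasDerivAt (fun s : ℂ => Q (w + s • η)) 0 0 := by
      have h2 : HasFDerivAt Q (0 : E →L[ℂ] ℂ) (w + (0 : ℂ) • η) := by
        rw [zero_smul, add_zero, ← hd]
        exact hQw.differentiableAt.hasFDerivAt
      exact h2.comp_hasDerivAt (0 : ℂ) hline
    set F := (zs g η ρ w).filter (fun t => w + t • η ∈ c) with hF
    have h0F : (0 : ℂ) ∈ F := by
      rw [hF, Finset.mem_filter, h.mem_zs hwr]
      refine ⟨⟨by simpa using hρ.le, ?_⟩, by simpa using hwc⟩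
      rw [zero_smul, add_zero]
      exact (hp0 w hwr).1.self_of_nhds.1 (hcD hwc)
    have hz0 : Tendsto (fun s : ℂ => w + s • η) (𝓝 0) (𝓝 w) := by
      have h2 := hline.continuousAt.tendsto
      rwa [zero_smul, add_zero] at h2
    have hb : ∀ᶠ z in 𝓝 w, z ∈ ball x₀ R := isOpen_ball.mem_nhds hw
    have hden : ∀ᶠ z in 𝓝 w, den g η ρ N z ≠ 0 :=
      (h.den_analytic N hwr).continuousAt.eventually_ne hw0
    have hsm : ∀ᶠ s : ℂ in 𝓝 0, ‖s‖ ≤ ρ / 2 := by
      have : ∀ᶠ s : ℂ in 𝓝 0, s ∈ ball (0 : ℂ) (ρ / 2) := ball_mem_nhds _ (by positivity)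
      filter_upwards [this] with s hs
      rw [mem_ball_zero_iff] at hs
      exact hs.le
    have h3 : (fun s : ℂ => Q (w + s • η)) =ᶠ[𝓝 0] fun s => s * ∏ t ∈ F.erase 0, (s - t) := by
      filter_upwards [hz0.eventually hb, hz0.eventually hden, hsm] with s h4 h5 h6
      rw [← (hRb _ h4).2.2 h5, h.hp_line hwr (hRb _ h4).1 h6, ← hF,
        ← Finset.mul_prod_erase F _ h0F, sub_zero]
    have h4 : HasDerivAt (fun s : ℂ => s * ∏ t ∈ F.erase 0, (s - t)) 0 0 :=
      h1.congr_of_eventuallyEq h3.symm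
    have h5 : HasDerivAt (fun s : ℂ => s * ∏ t ∈ F.erase 0, (s - t))
        (1 * ∏ t ∈ F.erase 0, ((0 : ℂ) - t) +
          0 * deriv (fun s : ℂ => ∏ t ∈ F.erase 0, (s - t)) 0) 0 := by
      refine (hasDerivAt_id (0 : ℂ)).mul ?_
      have : DifferentiableAt ℂ (fun s : ℂ => ∏ t ∈ F.erase 0, (s - t)) 0 := by fun_prop
      exact this.hasDerivAt
    have h6 := h5.unique h4
    rw [one_mul, zero_mul, add_zero] at h6
    obtain ⟨t, ht, ht0⟩ := Finset.prod_eq_zero_iff.1 h6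
    rw [zero_sub, neg_eq_zero] at ht0
    exact Finset.ne_of_mem_erase ht ht0

end Vale.Agent.P281.H303.Gen
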