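import Vale.Agent.P281.H399.Gen.Etale
import Vale.Agent.P281.H511.Gen.Prime
import Vale.Agent.P281.H150.Sec
import Vale.Agent.P281.H150.Gen.Core

/-! P281, project T-V, block V13d (helper303): the étale points of a hypersurface over `ℂ^p`, and
the local structure of a finite covering. -/

open Set Filter Metric Vale.Agent.P281 Vale.Agent.P281.H713 Vale.Agent.P281.H64
open scoped Topology ContDiff Manifold

noncomputable section

namespace Vale.Agent.P281.H303.Gen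

open Vale.Agent.P281.H511.Gen Vale.Agent.P281.H64.Gen
open Vale.Agent.P281.H150.Gen (pr lst)

variable {p : ℕ} {X : Type} [TopologicalSpace X] [ChartedSpace (Cm (p + 1)) X]

/-- `D` is a smooth hypersurface at `w`, étale over `ℂ^p`. -/
def EtAt (D : Set X) (f : X → Cm p) (w : X) : Prop :=
  ∃ e : X → ℂ, HolV (Cm (p + 1)) e w ∧ e w = 0 ∧ (∀ᶠ z in 𝓝 w, z ∈ D ↔ e z = 0) ∧
    ∀ ξ : Cm (p + 1), dV (Cm (p + 1)) f w ξ = 0 → dV (Cm (p + 1)) e w ξ = 0 → ξ = 0

/-- The data of a finite covering of `B ⊆ ℂ^p`. -/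
structure Cov (D K : Set X) (f : X → Cm p) (t : X → ℂ) (B : Set (Cm p)) : Prop where
  cpt : IsCompact K
  sub : K ⊆ D
  hol : ∀ w ∈ K, HolV (Cm (p + 1)) f w ∧ HolV (Cm (p + 1)) t w
  nhd : ∀ w ∈ K, f w ∈ B → ∀ᶠ x in 𝓝 w, x ∈ D → x ∈ K
  opn : IsOpen B

/-- The fibre. -/
def fib (K : Set X) (f : X → Cm p) (b : Cm p) : Set X := {w | w ∈ K ∧ f w = b}

variable [IsManifold 𝓘(ℂ, Cm (p + 1)) ω X]

/-- The local section through an étale point. -/
theorem EtAt.sec {D : Set X} {f : X → Cm p} {w : X} (hf : HolV (Cm (p + 1)) f w)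
    (h : EtAt D f w) : ∃ s : Cm p → X, ContMDiffAt 𝓘(ℂ, Cm p) 𝓘(ℂ, Cm (p + 1)) ω s (f w) ∧
      s (f w) = w ∧ (∀ᶠ y in 𝓝 (f w), f (s y) = y ∧ s y ∈ D) ∧
      ∀ᶠ x in 𝓝 w, x ∈ D → s (f x) = x := by
  obtain ⟨e, he, he0, hD, hinj⟩ := h
  let e₀ : Cm (p + 1) ≃L[ℂ] (Cm p × ℂ) := ContinuousLinearEquiv.ofFinrankEq (by simp)
  obtain ⟨s, h1, h2, h3, h4⟩ := H150.exists_sec (Y := Cm p) e₀ (f := f) (u := e) (x₀ := w) hf he
    he0 hinj
  refine ⟨s, h1, h2, ?_, ?_⟩
  · have h5 : Tendsto s (𝓝 (f w)) (𝓝 w) := by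
      have := h1.continuousAt.tendsto
      rwa [h2] at this
    filter_upwards [h3, h5.eventually hD] with y h6 h7
    exact ⟨h6.1, h7.2 h6.2⟩
  · filter_upwards [h4, hD] with x h6 h7 h8
    exact h6 (h7.1 h8)

namespace Cov

variable {D K : Set X} {f : X → Cm p} {t : X → ℂ} {B : Set (Cm p)}

theorem fib_compact [T2Space X] (h : Cov D K f t B) (b : Cm p) : IsCompact (fib K f b) := by
  have hc : ContinuousOn f K := fun w hw => (h.hol w hw).1.continuousAt.continuousWithinAt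
  have h1 : IsClosed (K ∩ f ⁻¹' {b}) :=
    hc.preimage_isClosed_of_isClosed h.cpt.isClosed isClosed_singleton
  exact h.cpt.of_isClosed_subset h1 inter_subset_left

theorem fib_finite [T2Space X] (h : Cov D K f t B) {b : Cm p}
    (he : ∀ w ∈ fib K f b, EtAt D f w) : (fib K f b).Finite := by
  have h1 : ∀ w ∈ fib K f b, {x | x ∈ D → f x = b → x = w} ∈ 𝓝 w := by
    intro w hw
    obtain ⟨s, -, h2, -, h3⟩ := (he w hw).sec (h.hol w hw.1).1
    filter_upwards [h3] with x hx hxD hxb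
    rw [← hx hxD, hxb, ← hw.2, h2]
  obtain ⟨T, hT, hcov⟩ := (h.fib_compact b).elim_nhds_subcover
    (fun w => {x | x ∈ D → f x = b → x = w}) h1
  refine T.finite_toSet.subset fun x hx => ?_
  obtain ⟨w, hw, hxw⟩ := mem_iUnion₂.1 (hcov hx)
  rw [hxw (h.sub hx.1) hx.2]
  exact hw

/-- The local structure of the covering. -/
theorem local_sec [T2Space X] (h : Cov D K f t B) {b : Cm p} (hb : b ∈ B)
    (he : ∀ w ∈ fib K f b, EtAt D f w) : ∃ s : X → Cm p → X,
      (∀ w ∈ fib K f b, ContMDiffAt 𝓘(ℂ, Cm p) 𝓘(ℂ, Cm (p + 1)) ω (s w) b ∧ s w b = w) ∧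
      ∀ᶠ b' in 𝓝 b, fib K f b' = (fun w => s w b') '' fib K f b ∧
        InjOn (fun w => s w b') (fib K f b) := by
  classical
  have hfin := h.fib_finite he
  have hex : ∀ w, ∃ s : Cm p → X, w ∈ fib K f b →
      ContMDiffAt 𝓘(ℂ, Cm p) 𝓘(ℂ, Cm (p + 1)) ω s b ∧ s b = w ∧
      (∀ᶠ y in 𝓝 b, f (s y) = y ∧ s y ∈ D) ∧ ∀ᶠ x in 𝓝 w, x ∈ D → s (f x) = x := by
    intro w
    by_cases hw : w ∈ fib K f b
    · obtain ⟨s, hs⟩ := (he w hw).sec (h.hol w hw.1).1
      rw [hw.2] at hs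
      exact ⟨s, fun _ => hs⟩
    · exact ⟨fun _ => w, fun h => absurd h hw⟩
  choose s hs using hex
  refine ⟨s, fun w hw => ⟨(hs w hw).1, (hs w hw).2.1⟩, ?_⟩
  have htend : ∀ w ∈ fib K f b, Tendsto (s w) (𝓝 b) (𝓝 w) := by
    intro w hw
    have := (hs w hw).1.continuousAt.tendsto
    rwa [(hs w hw).2.1] at this
  -- the sections have values in the fibre
  have h1 : ∀ᶠ b' in 𝓝 b, ∀ w ∈ fib K f b, s w b' ∈ fib K f b' := by
    rw [Filter.eventually_all_finite hfin]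
    intro w hw
    have h2 := h.nhd w hw.1 (by rw [hw.2]; exact hb)
    filter_upwards [(hs w hw).2.2.1, (htend w hw).eventually h2] with b' h3 h4
    exact ⟨h4 h3.2, h3.1⟩
  -- injectivity
  have h2 : ∀ᶠ b' in 𝓝 b, ∀ w ∈ fib K f b, ∀ w' ∈ fib K f b, s w b' = s w' b' → w = w' := by
    rw [Filter.eventually_all_finite hfin]
    intro w hw
    rw [Filter.eventually_all_finite hfin]
    intro w' hw'
    by_cases hne : w = w'
    · exact Eventually.of_forall fun _ _ => hne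
    · obtain ⟨U, V, hU, hV, hwU, hwV, hUV⟩ := t2_separation hne
      filter_upwards [(htend w hw).eventually (hU.mem_nhds hwU),
        (htend w' hw').eventually (hV.mem_nhds hwV)] with b' h3 h4 h5
      exfalso
      rw [← h5] at h4
      exact disjoint_left.1 hUV h3 h4
  -- surjectivity
  have h3 : ∀ᶠ b' in 𝓝 b, ∀ x ∈ fib K f b', ∃ w ∈ fib K f b, s w b' = x := by
    set N : Set X := ⋃ w ∈ fib K f b, interior {x | x ∈ D → s w (f x) = x} with hN
    have hNo : IsOpen N := isOpen_biUnion fun _ _ => isOpen_interior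
    have hKN : IsCompact (K \ N) := h.cpt.diff hNo
    have hc : ContinuousOn f (K \ N) := fun w hw =>
      (h.hol w hw.1).1.continuousAt.continuousWithinAt
    have hcl : IsClosed (f '' (K \ N)) := (hKN.image_of_continuousOn hc).isClosed
    have hbn : b ∉ f '' (K \ N) := by
      rintro ⟨w, ⟨hwK, hwN⟩, hwb⟩
      apply hwN
      have hw : w ∈ fib K f b := ⟨hwK, hwb⟩
      exact mem_biUnion hw (mem_interior_iff_mem_nhds.2 (hs w hw).2.2.2)
    filter_upwards [hcl.isOpen_compl.mem_nhds hbn] with b' hb' x hx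
    have hxN : x ∈ N := by
      by_contra hcon
      exact hb' ⟨x, ⟨hx.1, hcon⟩, hx.2⟩
    obtain ⟨w, hw, hxw⟩ := mem_iUnion₂.1 hxN
    refine ⟨w, hw, ?_⟩
    have h4 := interior_subset hxw (h.sub hx.1)
    rwa [hx.2] at h4
  filter_upwards [h1, h2, h3] with b' h4 h5 h6
  refine ⟨Subset.antisymm ?_ ?_, fun w hw w' hw' => h5 w hw w' hw'⟩
  · intro x hx
    obtain ⟨w, hw, hwx⟩ := h6 x hx
    exact ⟨w, hw, hwx⟩
  · rintro _ ⟨w, hw, rfl⟩
    exact h4 w hw

theorem ncard_eventually [T2Space X] (h : Cov D K f t B) {b : Cm p} (hb : b ∈ B)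
    (he : ∀ w ∈ fib K f b, EtAt D f w) :
    ∀ᶠ b' in 𝓝 b, (fib K f b').ncard = (fib K f b).ncard := by
  obtain ⟨s, -, hs⟩ := h.local_sec hb he
  filter_upwards [hs] with b' hb'
  rw [hb'.1, hb'.2.ncard_image]

end Cov

/-- The product of the `s - t w`, `w` in the fibre of `b`, at `v = (b, s)`. -/
def prd (K : Set X) (f : X → Cm p) (t : X → ℂ) (v : Cm (p + 1)) : ℂ :=
  ∏ᶠ (w : X) (_ : w ∈ fib K f (pr p v)), (lst p v - t w)

theorem Cov.prd_analytic {D K : Set X} {f : X → Cm p} {t : X → ℂ} {B : Set (Cm p)} [T2Space X]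
    (h : Cov D K f t B) {v : Cm (p + 1)} (hv : pr p v ∈ B)
    (he : ∀ w ∈ fib K f (pr p v), EtAt D f w) : AnalyticAt ℂ (prd K f t) v := by
  classical
  obtain ⟨s, hs1, hs2⟩ := h.local_sec hv he
  have hfin := h.fib_finite he
  have hpr : Tendsto (pr p) (𝓝 v) (𝓝 (pr p v)) := (pr p).continuous.tendsto v
  have heq : prd K f t =ᶠ[𝓝 v] fun v' => ∏ w ∈ hfin.toFinset, (lst p v' - t (s w (pr p v'))) := by
    filter_upwards [hpr.eventually hs2] with v' hv'
    rw [prd, hv'.1, finprod_mem_image' (hv'.2.mono inter_subset_left)]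
    exact finprod_mem_eq_finite_toFinset_prod _ hfin
  refine AnalyticAt.congr ?_ heq.symm
  refine Finset.analyticAt_fun_prod _ fun w hw => ?_
  have hwf : w ∈ fib K f (pr p v) := hfin.mem_toFinset.1 hw
  refine ((lst p).analyticAt v).sub ?_
  have h1 : ContMDiffAt 𝓘(ℂ, Cm p) 𝓘(ℂ, ℂ) ω (fun b => t (s w b)) (pr p v) := by
    have h2 : ContMDiffAt 𝓘(ℂ, Cm (p + 1)) 𝓘(ℂ, ℂ) ω t (s w (pr p v)) := by
      rw [(hs1 w hwf).2]
      exact (h.hol w hwf.1).2
    exact ContMDiffAt.comp (pr p v) h2 (hs1 w hwf).1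
  have h3 : AnalyticAt ℂ (fun b => t (s w b)) (pr p v) :=
    (contMDiffAt_iff_contDiffAt.1 h1).analyticAt
  exact AnalyticAt.fun_comp (g := fun b => t (s w b)) (f := pr p) h3 ((pr p).analyticAt v)

end Vale.Agent.P281.H303.Gen
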