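import Vale.Agent.P281.H64.Gen.SpecN
import Vale.Agent.P281.H150.Gen.Core

/-! P281, project T-V, block V13d (helper303): two independent pieces. -/

open Set Filter Metric
open Vale.Agent.P281.H64 (Cm)
open Vale.Agent.P281.H64.Thin (IsThinSet)
open scoped Topology ContDiff Manifold

noncomputable section

namespace Vale.Agent.P281.H303.Gen

/-- **P-DIR** (Baire on directions): a closed subset `C` of a countable union of thin closed sets is
disjoint from `{x₀ + t η : |t| = 1}` for some arbitrarily small `η`, off countably many closed sets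
with empty interior. (Lindelöf: `C` is contained in countably many sets
`closedBall y_j r_j ∩ {g_j = 0}`, `g_j` analytic and nowhere locally zero on `ball y_j (2 r_j)`. The
set of the bad `η` for `j` is closed (the circle is compact); it has empty interior: for `η₁` in its
interior, after moving `η₁`, `g_j (x₀ + t η₁)` is not identically zero on the disc of the `t` with
`x₀ + t η₁ ∈ ball y_j (2 r_j)`, so it has no zeros with `|t| = lam`, `x₀ + t η₁` in the closed ball,
for some `lam` near `1`; take `lam η₁`.) -/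
def DirStmt : Prop :=
  ∀ (n : ℕ) (C : Set (Cm n)) (x₀ : Cm n) (R : ℝ) (H N : ℕ → Set (Cm n)), 0 < R → IsClosed C →
    (∀ k, IsThinSet (Cm n) (H k)) → C ⊆ ⋃ k, H k →
    (∀ k, IsClosed (N k) ∧ interior (N k) = ∅) →
    ∃ η : Cm n, ‖η‖ < R ∧ (∀ k, η ∉ N k) ∧ ∀ t : ℂ, ‖t‖ = 1 → x₀ + t • η ∉ C

/-- **P-NS**: the points of the reduced hypersurface `{G = 0}` where it is not étale over `ℂ^p`.
(If `F ∘ φ` is submersive, there is a local section `σ` of `F` with values in `A` (`exists_straight`
in `H150/Gen/Fac`); its image is `{h = 0}`, `h z = l z - l (σ (F z))`, `l` a linear form not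
vanishing on the kernel of `dF`; `G = h^k w` (`exists_pow_mul` of `H511/Gen/Hyp`), `w` not
identically zero on `{h = 0}`; `k = 1` as `G` is reduced; at a point where `h = 0`, `w ≠ 0`,
`dG = w dh`, and `(dF, dh)` is injective.) -/
def NsStmt : Prop :=
  ∀ (p : ℕ) (W : Set (Cm (p + 1))) (G : Cm (p + 1) → ℂ) (F : Cm (p + 1) → Cm p), IsOpen W →
    (∀ z ∈ W, AnalyticAt ℂ G z ∧ AnalyticAt ℂ F z) →
    (∀ z ∈ W, G z = 0 → z ∈ closure {z' | G z' = 0 ∧ fderiv ℂ G z' ≠ 0}) →
    H150.Gen.NoSub W {z | G z = 0 ∧ ∃ ξ : Cm (p + 1), ξ ≠ 0 ∧ fderiv ℂ F z ξ = 0 ∧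
      fderiv ℂ G z ξ = 0} F

end Vale.Agent.P281.H303.Gen
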