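import Vale.Agent.P281.H303.Gen.Push1
import Vale.Agent.P281.H303.Gen.PushSpec
import Vale.Agent.P281.H303.Gen.Irr
import Vale.Agent.P281.H150.Gen.Img

/-! P281, project T-V, block V13d (helper303): the points of a hypersurface which are not étale over
`ℂ^p` have a small image. -/

open Set Filter Metric Vale.Agent.P281 Vale.Agent.P281.H713 Vale.Agent.P281.H64
open scoped Topology ContDiff Manifold

noncomputable section

namespace Vale.Agent.P281.H303.Gen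

open Vale.Agent.P281.H511.Gen Vale.Agent.P281.H64.Gen
open Vale.Agent.P281.H150.Gen (pr lst AnIn NoSub SThin)

variable {p : ℕ} {X : Type} [TopologicalSpace X] [ChartedSpace (Cm (p + 1)) X]
  [IsManifold 𝓘(ℂ, Cm (p + 1)) ω X]

theorem etAt_iff {D : Set X} {f : X → Cm p} {w : X} {g : X → ℂ} (hw : w ∈ D)
    (hg : IsLocalEq (Cm (p + 1)) D g w) : EtAt D f w ↔
      ∀ ξ : Cm (p + 1), dV (Cm (p + 1)) f w ξ = 0 → dV (Cm (p + 1)) g w ξ = 0 → ξ = 0 := by
  constructor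
  · rintro ⟨e, he, he0, hD, hinj⟩ ξ h1 h2
    have hde : J.dif (Cm (p + 1)) e w ≠ 0 := by
      intro h0
      have h3 : Function.Injective ((dV (Cm (p + 1)) f w : Cm (p + 1) →L[ℂ] Cm p) :
          Cm (p + 1) →ₗ[ℂ] Cm p) := by
        refine (injective_iff_map_eq_zero _).2 fun ξ hξ => hinj ξ hξ ?_
        have h4 : dV (Cm (p + 1)) e w = 0 := h0
        rw [h4]
        rfl
      have h4 := LinearMap.finrank_le_finrank_of_injective h3
      simp at h4
    obtain ⟨u, hu, hu0, hev⟩ := exists_unit he he0 hde hD hg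
    have h3 := dif_mul_unit he he0 hu hev
    refine hinj ξ h1 ?_
    have h4 : dV (Cm (p + 1)) g w = u w • dV (Cm (p + 1)) e w := h3
    rw [h4] at h2
    have h5 : u w * dV (Cm (p + 1)) e w ξ = 0 := h2
    exact (mul_eq_zero.1 h5).resolve_left hu0
  · intro h
    exact ⟨g, hg.holAt, hg.mem_iff.1 hw, isLocalEq_mem_iff hg, h⟩

/-- The points where a pair `(G, F)` does not have an injective differential. -/
def bad (G : Cm (p + 1) → ℂ) (F : Cm (p + 1) → Cm p) : Set (Cm (p + 1)) :=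
  {z | G z = 0 ∧ ∃ ξ : Cm (p + 1), ξ ≠ 0 ∧ fderiv ℂ F z ξ = 0 ∧ fderiv ℂ G z ξ = 0}

theorem anIn_bad {W : Set (Cm (p + 1))} (hW : IsOpen W) {G : Cm (p + 1) → ℂ}
    {F : Cm (p + 1) → Cm p} (hGF : ∀ z ∈ W, AnalyticAt ℂ G z ∧ AnalyticAt ℂ F z) :
    AnIn W (bad G F) := by
  set FF : Cm (p + 1) → Cm (p + 1) := fun z => Fin.cons (G z) (F z) with hFF
  have hd : ∀ z ∈ W, HasFDerivAt FF ((fderiv ℂ G z).finCons (fderiv ℂ F z)) z := by
    intro z hz
    exact HasFDerivAt.finCons (hGF z hz).1.differentiableAt.hasFDerivAt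
      (hGF z hz).2.differentiableAt.hasFDerivAt
  have han : ∀ z ∈ W, AnalyticAt ℂ FF z := by
    intro z hz
    refine AnalyticAt.pi fun i => ?_
    refine Fin.cases ?_ (fun j => ?_) i
    · exact (hGF z hz).1
    · exact (((ContinuousLinearMap.proj (R := ℂ) (φ := fun _ : Fin p => ℂ) j).analyticAt _).fun_comp
        (hGF z hz).2)
  intro z hz
  obtain ⟨U, ι, h, hU, hzU, hh, hA⟩ := H150.Gen.anIn_crit hW han z hz
  refine ⟨U ∩ W, Option ι, fun o => o.elim G h, hU.inter hW, ⟨hzU, hz⟩, ?_, ?_⟩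
  · rintro (_ | i) w ⟨hwU, hwW⟩
    · exact (hGF w hwW).1
    · exact hh i w hwU
  · rintro w ⟨hwU, hwW⟩
    have h1 : (¬ Function.Surjective (fderiv ℂ FF w)) ↔
        ∃ ξ : Cm (p + 1), ξ ≠ 0 ∧ fderiv ℂ F w ξ = 0 ∧ fderiv ℂ G w ξ = 0 := by
      have h2 : Function.Injective ((fderiv ℂ FF w : Cm (p + 1) →L[ℂ] Cm (p + 1)) :
          Cm (p + 1) →ₗ[ℂ] Cm (p + 1)) ↔ Function.Surjective
          ((fderiv ℂ FF w : Cm (p + 1) →L[ℂ] Cm (p + 1)) : Cm (p + 1) →ₗ[ℂ] Cm (p + 1)) :=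
        LinearMap.injective_iff_surjective
      have h3 : ∀ ξ, fderiv ℂ FF w ξ = 0 ↔ fderiv ℂ F w ξ = 0 ∧ fderiv ℂ G w ξ = 0 := by
        intro ξ
        rw [(hd w hwW).fderiv]
        constructor
        · intro h4
          have h5 := fun i => congrFun h4 i
          refine ⟨?_, ?_⟩
          · funext j
            have := h5 j.succ
            simpa using this
          · have := h5 0
            simpa using this
        · rintro ⟨h4, h5⟩
          funext i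
          refine Fin.cases ?_ (fun j => ?_) i
          · simpa using h5
          · have := congrFun h4 j
            simpa using this
      rw [show (¬ Function.Surjective (fderiv ℂ FF w)) ↔ ¬ Function.Injective
          ((fderiv ℂ FF w : Cm (p + 1) →L[ℂ] Cm (p + 1)) :
          Cm (p + 1) →ₗ[ℂ] Cm (p + 1)) from (not_congr h2).symm, injective_iff_map_eq_zero]
      push Not
      constructor
      · rintro ⟨ξ, h4, h5⟩
        exact ⟨ξ, h5, (h3 ξ).1 h4⟩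
      · rintro ⟨ξ, h4, h5⟩
        exact ⟨ξ, (h3 ξ).2 h5, h4⟩
    have h4 := hA w hwU
    simp only [mem_ofPred_eq] at h4
    rw [h1] at h4
    constructor
    · rintro ⟨h5, h6⟩ (_ | i)
      · exact h5
      · exact h4.1 h6 i
    · intro h5
      exact ⟨h5 none, h4.2 fun i => h5 (some i)⟩

/-- The description in a chart. -/
theorem exists_chart {D : Set X} {f : X → Cm p} {x₀ : X} {g : X → ℂ}
    (hg : IsLocalEq (Cm (p + 1)) D g x₀) (hf : HolV (Cm (p + 1)) f x₀) :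
    ∃ W : Set (Cm (p + 1)), IsOpen W ∧ chartAt (Cm (p + 1)) x₀ x₀ ∈ W ∧
      W ⊆ (chartAt (Cm (p + 1)) x₀).target ∧
      (∀ z ∈ W, AnalyticAt ℂ (g ∘ (chartAt (Cm (p + 1)) x₀).symm) z ∧
        AnalyticAt ℂ (f ∘ (chartAt (Cm (p + 1)) x₀).symm) z) ∧
      (∀ z ∈ W, (g ∘ (chartAt (Cm (p + 1)) x₀).symm) z = 0 → z ∈ closure {z' |
        (g ∘ (chartAt (Cm (p + 1)) x₀).symm) z' = 0 ∧
          fderiv ℂ (g ∘ (chartAt (Cm (p + 1)) x₀).symm) z' ≠ 0}) ∧
      ∀ z ∈ W, ((chartAt (Cm (p + 1)) x₀).symm z ∈ D ∧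
        ¬ EtAt D f ((chartAt (Cm (p + 1)) x₀).symm z)) ↔
        z ∈ bad (g ∘ (chartAt (Cm (p + 1)) x₀).symm) (f ∘ (chartAt (Cm (p + 1)) x₀).symm) := by
  set φ := chartAt (Cm (p + 1)) x₀ with hφ
  have hx : x₀ ∈ φ.source := mem_chart_source _ x₀
  obtain ⟨V, hVo, hxV, hV1, hV2, hV3⟩ := hg
  obtain ⟨V', hV', hV'o, hxV'⟩ := eventually_nhds_iff.1 hf.eventually
  set W : Set (Cm (p + 1)) := φ.target ∩ φ.symm ⁻¹' (V ∩ V') with hW
  have hWo : IsOpen W := φ.isOpen_inter_preimage_symm (hVo.inter hV'o)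
  have hleq : ∀ x ∈ V, IsLocalEq (Cm (p + 1)) D g x := fun x hx' => ⟨V, hVo, hx', hV1, hV2, hV3⟩
  refine ⟨W, hWo, ⟨φ.map_source hx, ?_⟩, inter_subset_left, ?_, ?_, ?_⟩
  · rw [mem_preimage, φ.left_inv hx]
    exact ⟨hxV, hxV'⟩
  · rintro z ⟨hz, hzV, hzV'⟩
    have h1 := (HolV.rep (φ.map_target hz) (hV1 _ hzV : HolV (Cm (p + 1)) g _)).analyticAt
    have h2 := (HolV.rep (φ.map_target hz) (hV' _ hzV')).analyticAt
    rw [← hφ, φ.right_inv hz] at h1 h2
    exact ⟨h1, h2⟩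
  · rintro z ⟨hz, hzV, hzV'⟩ h0
    have h1 := hV3 ⟨(hV2 _ hzV).2 h0, hzV⟩
    rw [mem_closure_iff_frequently] at h1 ⊢
    intro hcon
    apply h1
    have h2 := (φ.eventually_nhds' (fun x => ¬ (x ∈ {x | x ∈ D ∧ J.dif (Cm (p + 1)) g x ≠ 0}))
      (φ.map_target hz)).1 (by
      rw [φ.right_inv hz]
      filter_upwards [hcon, hWo.mem_nhds (show z ∈ W from ⟨hz, hzV, hzV'⟩)] with z' h3 h4 h5
      apply h3
      refine ⟨(hV2 _ h4.2.1).1 h5.1, ?_⟩
      have h6 := (dif_ne_iff_chart (φ.map_target h4.1) (hV1 _ h4.2.1)).1 h5.2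
      rwa [← hφ, φ.right_inv h4.1] at h6)
    exact h2
  · rintro z ⟨hz, hzV, hzV'⟩
    have hxs := φ.map_target hz
    set x := φ.symm z with hxz
    have hxφ : φ x = z := φ.right_inv hz
    have hbij := H399.Gen.dV_inj (p := p) hxs
    have e1 := dV_eq_chart hxs (hV1 x hzV : HolV (Cm (p + 1)) g x)
    have e2 := dV_eq_chart hxs (hV' x hzV')
    rw [← hφ, hxφ] at e1 e2
    constructor
    · rintro ⟨hxD, hne⟩
      rw [etAt_iff hxD (hleq x hzV)] at hne
      push Not at hne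
      obtain ⟨ξ, h1, h2, h3⟩ := hne
      refine ⟨(hV2 x hzV).1 hxD, dV (Cm (p + 1)) (φ : X → Cm (p + 1)) x ξ, ?_, ?_, ?_⟩
      · intro h0
        apply h3
        apply hbij.1
        rw [map_zero]
        exact h0
      · rw [e2] at h1
        exact h1
      · rw [e1] at h2
        exact h2
    · rintro ⟨h0, ζ, hζ, h1, h2⟩
      have hxD : x ∈ D := (hV2 x hzV).2 h0
      refine ⟨hxD, ?_⟩
      rw [etAt_iff hxD (hleq x hzV)]
      intro hcon
      obtain ⟨ξ, rfl⟩ := hbij.2 ζ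
      apply hζ
      have h3 : ξ = 0 := by
        refine hcon ξ ?_ ?_
        · rw [e2]
          exact h1
        · rw [e1]
          exact h2
      rw [h3, map_zero]

/-- Étale points form an open subset. -/
theorem etAt_open {D : Set X} {f : X → Cm p} {w : X} (hg : ∃ g, IsLocalEq (Cm (p + 1)) D g w)
    (hf : HolV (Cm (p + 1)) f w) (h : w ∈ D → EtAt D f w) :
    ∀ᶠ x in 𝓝 w, x ∈ D → EtAt D f x := by
  obtain ⟨g, hg⟩ := hg
  obtain ⟨W, hWo, hwW, hWt, hW1, -, hW3⟩ := exists_chart hg hf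
  set φ := chartAt (Cm (p + 1)) w with hφ
  have hx : w ∈ φ.source := mem_chart_source _ w
  obtain ⟨U, ι, k, hU, hzU, hk, hA⟩ := anIn_bad hWo hW1 (φ w) hwW
  have h1 : φ w ∉ bad (g ∘ φ.symm) (f ∘ φ.symm) := by
    rw [← hW3 _ hwW, φ.left_inv hx]
    rintro ⟨h2, h3⟩
    exact h3 (h h2)
  rw [hA _ hzU] at h1
  push Not at h1
  obtain ⟨i, hi⟩ := h1
  have h2 : ∀ᶠ z in 𝓝 (φ w), k i z ≠ 0 := (hk i _ hzU).continuousAt.eventually_ne hi
  have h3 : ∀ᶠ z in 𝓝 (φ w), φ.symm z ∈ D → EtAt D f (φ.symm z) := by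
    filter_upwards [h2, hU.mem_nhds hzU, hWo.mem_nhds hwW] with z h4 h5 h6 h7
    by_contra hcon
    exact h4 ((hA z h5).1 ((hW3 z h6).1 ⟨h7, hcon⟩) i)
  exact (φ.eventually_nhds' (fun x => x ∈ D → EtAt D f x) hx).1 h3

namespace Cov

variable {D K : Set X} {f : X → Cm p} {t : X → ℂ} {B : Set (Cm p)}

/-- The branch locus is compact. -/
theorem branch_compact [T2Space X] (h : Cov D K f t B)
    (hloc : ∀ x, ∃ g, IsLocalEq (Cm (p + 1)) D g x) :
    IsCompact (f '' {w | w ∈ K ∧ ¬ EtAt D f w}) := by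
  have h1 : IsClosed {w | w ∈ K ∧ ¬ EtAt D f w} := by
    rw [← isOpen_compl_iff, isOpen_iff_mem_nhds]
    intro w hw
    by_cases hwK : w ∈ K
    · have h2 : EtAt D f w := by
        by_contra hcon
        exact hw ⟨hwK, hcon⟩
      filter_upwards [etAt_open (hloc w) (h.hol w hwK).1 fun _ => h2] with x hx hx'
      exact hx'.2 (hx (h.sub hx'.1))
    · filter_upwards [h.cpt.isClosed.isOpen_compl.mem_nhds hwK] with x hx hx'
      exact hx hx'.1
  exact (h.cpt.of_isClosed_subset h1 fun w hw => hw.1).image_of_continuousOn fun w hw =>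
    (h.hol w hw.1).1.continuousAt.continuousWithinAt

/-- The branch locus is small. -/
theorem branch_small [T2Space X] [SecondCountableTopology X] (hns : NsStmt) (h : Cov D K f t B)
    (hloc : ∀ x, ∃ g, IsLocalEq (Cm (p + 1)) D g x) :
    IsSmallSet (Cm p) (f '' {w | w ∈ K ∧ ¬ EtAt D f w}) := by
  refine ⟨(h.branch_compact hloc).isClosed, ?_⟩
  show SThin (Cm p) (f '' {w | w ∈ K ∧ ¬ EtAt D f w})
  refine SThin.image_of_local fun w hw => ?_
  obtain ⟨g, hg⟩ := hloc w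
  obtain ⟨W, hWo, hwW, hWt, hW1, hW2, hW3⟩ := exists_chart hg (h.hol w hw.1).1
  set φ := chartAt (Cm (p + 1)) w with hφ
  have hx : w ∈ φ.source := mem_chart_source _ w
  have h1 := H150.Gen.core p _ (Cm (p + 1)) rfl W (bad (g ∘ φ.symm) (f ∘ φ.symm)) (f ∘ φ.symm) hWo
    (fun z hz => (hW1 z hz).2) (anIn_bad hWo hW1) (hns p W _ _ hWo hW1 hW2)
  refine ⟨φ.source ∩ φ ⁻¹' W, (φ.isOpen_inter_preimage hWo).mem_nhds ⟨hx, hwW⟩, h1.mono ?_⟩
  rintro _ ⟨x, ⟨⟨hxK, hxE⟩, hxs, hxW⟩, rfl⟩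
  refine ⟨φ x, ⟨?_, hxW⟩, ?_⟩
  · rw [← hW3 _ hxW, φ.left_inv hxs]
    exact ⟨h.sub hxK, hxE⟩
  · show f (φ.symm (φ x)) = f x
    rw [φ.left_inv hxs]

end Cov

end Vale.Agent.P281.H303.Gen
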