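import Vale.Agent.P281.H303.Gen.Push2
import Vale.Agent.P281.H383.Gen.Ext

/-! P281, project T-V, block V13d (helper303): the equation of the image of a finite covering. -/

open Set Filter Metric Vale.Agent.P281 Vale.Agent.P281.H713 Vale.Agent.P281.H64
open scoped Topology ContDiff Manifold

noncomputable section

namespace Vale.Agent.P281.H303.Gen

open Vale.Agent.P281.H511.Gen hiding pr
open Vale.Agent.P281.H64.Gen
open Vale.Agent.P281.H150.Gen (pr lst AnIn NoSub SThin)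
open Vale.Agent.P281.H64.Thin (IsThinSet)

/-! ### Small sets in open subsets of `ℂ^n` -/

section

variable {n : ℕ}

theorem holAt_opens {Ω : TopologicalSpace.Opens (Cm n)} {h : Cm n → ℂ} {x : Ω} :
    J.HolAt (Cm n) (fun y : Ω => h y) x ↔ AnalyticAt ℂ h (x : Cm n) := by
  have h1 : J.HolAt (Cm n) (fun y : Ω => h y) x ↔ J.HolAt (Cm n) h (x : Cm n) :=
    contMDiffAt_subtype_iff
  rw [h1]
  exact ⟨H150.Gen.analyticAt_of_holAt, H150.Gen.holAt_of_analyticAt⟩

theorem small_opens {Ω : TopologicalSpace.Opens (Cm n)} {S : Set (Cm n)}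
    (hS : IsSmallSet (Cm n) S) : IsSmallSet (Cm n) (Subtype.val ⁻¹' S : Set Ω) := by
  obtain ⟨hc, H, hH, hsub⟩ := hS
  refine ⟨hc.preimage continuous_subtype_val, fun k => Subtype.val ⁻¹' (H k), fun k => ?_, ?_⟩
  · obtain ⟨h1, h2⟩ := hH k
    refine ⟨h1.preimage continuous_subtype_val, fun x => ?_⟩
    obtain ⟨g, hg, hg0, hgz⟩ := h2 (x : Cm n)
    refine ⟨fun y => g y, holAt_opens.2 (H150.Gen.analyticAt_of_holAt hg), fun hcon => ?_,
      continuous_subtype_val.continuousAt.eventually hgz⟩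
    apply hg0
    have h3 : map (Subtype.val : Ω → Cm n) (𝓝 x) = 𝓝 (x : Cm n) :=
      Ω.2.isOpenEmbedding_subtypeVal.map_nhds_eq x
    rw [← h3]
    exact hcon
  · rw [← preimage_iUnion]
    exact preimage_mono hsub

/-- Riemann's extension theorem in an open subset of `ℂ^n`. -/
theorem exists_ext {Ω : Set (Cm n)} (hΩ : IsOpen Ω) {S : Set (Cm n)} (hS : IsSmallSet (Cm n) S)
    {u : Cm n → ℂ} (hu : ∀ v ∈ Ω, v ∉ S → AnalyticAt ℂ u v)
    (hb : ∀ v ∈ Ω, ∃ C : ℝ, ∀ᶠ z in 𝓝 v, z ∉ S → ‖u z‖ ≤ C) :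
    ∃ Q : Cm n → ℂ, ∀ v ∈ Ω, AnalyticAt ℂ Q v ∧ (v ∉ S → Q v = u v) := by
  classical
  set O : TopologicalSpace.Opens (Cm n) := ⟨Ω, hΩ⟩ with hO
  obtain ⟨v, hv, hvu⟩ := H383.Gen.ext n O (Subtype.val ⁻¹' S) (fun y : O => u y)
    (small_opens hS) (fun x hx => holAt_opens.2 (hu x x.2 hx)) (fun x => by
      obtain ⟨C, hC⟩ := hb x x.2
      exact ⟨C, continuous_subtype_val.continuousAt.eventually hC⟩)
  refine ⟨fun y => if h : y ∈ Ω then v ⟨y, h⟩ else 0, fun y hy => ⟨?_, fun hyS => ?_⟩⟩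
  · have h1 : (fun y : O => (fun y : Cm n => if h : y ∈ Ω then v ⟨y, h⟩ else 0) y) = v := by
      funext y
      have h2 : (y : Cm n) ∈ Ω := y.2
      simp only [dif_pos h2]
    have h2 := hv ⟨y, hy⟩
    rw [← h1] at h2
    exact (holAt_opens (Ω := O) (x := ⟨y, hy⟩)
      (h := fun y : Cm n => if h : y ∈ Ω then v ⟨y, h⟩ else 0)).1 h2
  · show (if h : y ∈ Ω then v ⟨y, h⟩ else 0) = u y
    rw [dif_pos hy]
    exact hvu ⟨y, hy⟩ hyS

theorem isPreconnected_diff {Ω : Set (Cm n)} (hΩ : IsOpen Ω) (hc : IsPreconnected Ω)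
    {S : Set (Cm n)} (hS : IsSmallSet (Cm n) S) : IsPreconnected (Ω \ S) := by
  set O : TopologicalSpace.Opens (Cm n) := ⟨Ω, hΩ⟩ with hO
  have : PreconnectedSpace O := isPreconnected_iff_preconnectedSpace.1 hc
  have h1 := (H383.Gen.compl n O (Subtype.val ⁻¹' S) (small_opens hS)).2
  have h2 := h1.image (Subtype.val : O → Cm n) continuous_subtype_val.continuousOn
  have h3 : (Subtype.val : O → Cm n) '' ((Subtype.val : O → Cm n) ⁻¹' S)ᶜ = Ω \ S := by
    ext y
    constructor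
    · rintro ⟨x, hx, rfl⟩
      exact ⟨x.2, hx⟩
    · rintro ⟨hy, hyS⟩
      exact ⟨⟨y, hy⟩, hyS, rfl⟩
  rwa [h3] at h2

end

/-! ### Coordinates on `ℂ^(p+1)` -/

section

variable {p : ℕ}

/-- The point with coordinates `(b, s)`. -/
def pnt (b : Cm p) (s : ℂ) : Cm (p + 1) := Fin.snoc b s

@[simp] theorem pr_pnt (b : Cm p) (s : ℂ) : pr p (pnt b s) = b := by
  funext i
  simp [pnt]

@[simp] theorem pnt_last (b : Cm p) (s : ℂ) : pnt b s (Fin.last p) = s := by
  simp [pnt]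

@[simp] theorem lst_pnt (b : Cm p) (s : ℂ) : lst p (pnt b s) = s := by
  simp

@[simp] theorem pnt_pr_lst (v : Cm (p + 1)) : pnt (pr p v) (lst p v) = v := by
  funext i
  refine Fin.lastCases ?_ (fun j => ?_) i <;> simp [pnt]

theorem continuous_pnt : Continuous fun q : Cm p × ℂ => pnt q.1 q.2 := by
  refine continuous_pi fun i => ?_
  refine Fin.lastCases ?_ (fun j => ?_) i
  · simpa [pnt] using continuous_snd
  · have h1 : Continuous fun q : Cm p × ℂ => q.1 j := (continuous_apply j).comp continuous_fst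
    simpa [pnt] using h1

theorem small_preimage {T : Set (Cm p)} (hT : IsSmallSet (Cm p) T) :
    IsSmallSet (Cm (p + 1)) (pr p ⁻¹' T) :=
  ⟨hT.1.preimage (pr p).continuous, H150.Gen.sthin_preimage hT.2⟩

end

namespace Cov

variable {p : ℕ} {X : Type} [TopologicalSpace X] [ChartedSpace (Cm (p + 1)) X]
  [IsManifold 𝓘(ℂ, Cm (p + 1)) ω X]
variable {D K : Set X} {f : X → Cm p} {t : X → ℂ} {B : Set (Cm p)}

/-- **The equation of the image of a covering.** -/
theorem main [T2Space X] [SecondCountableTopology X] (hns : NsStmt) (h : Cov D K f t B)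
    (hloc : ∀ x, ∃ g, IsLocalEq (Cm (p + 1)) D g x)
    (hdns : ∀ w ∈ K, f w ∈ B → w ∈ closure {x | x ∈ D ∧ EtAt D f x}) {v₀ : Cm (p + 1)}
    (hv₀ : pr p v₀ ∈ B) :
    ∃ Q : Cm (p + 1) → ℂ, AnalyticAt ℂ Q v₀ ∧ (¬ ∀ᶠ v in 𝓝 v₀, Q v = 0) ∧
      ∀ᶠ v in 𝓝 v₀, Q v = 0 ↔ ∃ w ∈ K, f w = pr p v ∧ t w = lst p v := by
  classical
  set T : Set (Cm p) := f '' {w | w ∈ K ∧ ¬ EtAt D f w} with hT
  have hTs : IsSmallSet (Cm p) T := h.branch_small hns hloc
  set S : Set (Cm (p + 1)) := pr p ⁻¹' T with hS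
  have hSs : IsSmallSet (Cm (p + 1)) S := small_preimage hTs
  have hTd : Dense Tᶜ := H383.Gen.dense_compl_small hTs
  have hSd : Dense Sᶜ := H383.Gen.dense_compl_small hSs
  obtain ⟨r, hr, hrB⟩ := Metric.mem_nhds_iff.1
    ((pr p).continuous.continuousAt.preimage_mem_nhds (h.opn.mem_nhds hv₀))
  set Ω := ball v₀ r with hΩ
  have he : ∀ v, v ∉ S → ∀ w ∈ fib K f (pr p v), EtAt D f w := by
    intro v hv w hw
    by_contra hcon
    exact hv ⟨w, ⟨hw.1, hcon⟩, hw.2⟩
  have hfin : ∀ v, v ∉ S → (fib K f (pr p v)).Finite := fun v hv => h.fib_finite (he v hv)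
  have hprd : ∀ v (hv : v ∉ S), prd K f t v =
      ∏ w ∈ (hfin v hv).toFinset, (lst p v - t w) := fun v hv =>
    finprod_mem_eq_finite_toFinset_prod _ (hfin v hv)
  -- the number of points
  obtain ⟨N, hN⟩ : ∃ N : ℕ, ∀ v ∈ Ω, v ∉ S → (fib K f (pr p v)).ncard = N := by
    have hpc := isPreconnected_diff isOpen_ball (convex_ball v₀ r).isPreconnected hSs
    by_cases hne : (Ω \ S).Nonempty
    · obtain ⟨v₁, hv₁⟩ := hne
      refine ⟨(fib K f (pr p v₁)).ncard, fun v hv hvS => ?_⟩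
      refine hpc.constant (f := fun v => (fib K f (pr p v)).ncard) ?_ ⟨hv, hvS⟩ hv₁
      rintro v ⟨hv, hvS⟩
      refine ContinuousAt.continuousWithinAt ?_
      have h1 := h.ncard_eventually (hrB hv) (he v hvS)
      have h2 : (fun v' => (fib K f (pr p v')).ncard) =ᶠ[𝓝 v] fun _ =>
          (fib K f (pr p v)).ncard := (pr p).continuous.continuousAt.eventually h1
      exact (continuousAt_const (y := (fib K f (pr p v)).ncard)).congr h2.symm
    · exact ⟨0, fun v hv hvS => absurd ⟨v, hv, hvS⟩ hne⟩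
  have hcard : ∀ v ∈ Ω, ∀ hv : v ∉ S, (hfin v hv).toFinset.card = N := by
    intro v hv hvS
    rw [← hN v hv hvS, Set.ncard_eq_toFinset_card _ (hfin v hvS)]
  -- the bound
  obtain ⟨M, hM⟩ : ∃ M : ℝ, ∀ w ∈ K, ‖t w‖ ≤ M := by
    have hc : ContinuousOn (fun w => ‖t w‖) K := fun w hw =>
      (h.hol w hw).2.continuousAt.norm.continuousWithinAt
    obtain ⟨M, hM⟩ := h.cpt.bddAbove_image hc
    exact ⟨M, fun w hw => hM ⟨w, hw, rfl⟩⟩
  obtain ⟨Q, hQ⟩ := exists_ext (Ω := Ω) isOpen_ball hSs (u := prd K f t)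
    (fun v hv hvS => h.prd_analytic (hrB hv) (he v hvS)) (by
      intro v hv
      refine ⟨(‖v₀‖ + r + M) ^ N, ?_⟩
      filter_upwards [isOpen_ball.mem_nhds hv] with z hz hzS
      rw [hprd z hzS, norm_prod, ← hcard z hz hzS, ← Finset.prod_const]
      refine Finset.prod_le_prod (fun _ _ => norm_nonneg _) fun w hw => ?_
      have hwK : w ∈ K := ((hfin z hzS).mem_toFinset.1 hw).1
      have h1 : ‖lst p z‖ ≤ ‖z‖ := norm_le_pi_norm z (Fin.last p)
      have h2 : ‖z‖ ≤ ‖v₀‖ + r := by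
        have h3 : ‖z - v₀‖ < r := by
          rw [← dist_eq_norm]
          exact hz
        have h4 := norm_add_le v₀ (z - v₀)
        rw [add_sub_cancel] at h4
        linarith
      have h3 := norm_sub_le (lst p z) (t w)
      have h4 := hM w hwK
      linarith)
  -- the image
  set C : Set (Cm (p + 1)) := {v | ∃ w ∈ K, f w = pr p v ∧ t w = lst p v} with hC
  have hCc : IsClosed C := by
    have h1 : C = (fun w => pnt (f w) (t w)) '' K := by
      ext v
      constructor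
      · rintro ⟨w, hw, h2, h3⟩
        refine ⟨w, hw, ?_⟩
        show pnt (f w) (t w) = v
        rw [h2, h3, pnt_pr_lst]
      · rintro ⟨w, hw, rfl⟩
        exact ⟨w, hw, by simp⟩
    rw [h1]
    refine (h.cpt.image_of_continuousOn fun w hw => ?_).isClosed
    exact (continuous_pnt.continuousAt.comp ((h.hol w hw).1.continuousAt.prodMk
      (h.hol w hw).2.continuousAt)).continuousWithinAt
  -- first inclusion
  have hZ2 : ∀ v ∈ Ω, Q v = 0 → v ∈ C := by
    intro v hv h0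
    by_contra hvC
    obtain ⟨ε, hε, hεC⟩ := Metric.mem_nhds_iff.1 (hCc.isOpen_compl.mem_nhds hvC)
    have h1 : ∀ᶠ v' in 𝓝 v, ‖Q v'‖ < (ε / 2) ^ N := by
      refine (hQ v hv).1.continuousAt.norm.eventually_lt_const ?_
      show ‖Q v‖ < _
      rw [h0, norm_zero]
      positivity
    have hfr : ∃ᶠ v' in 𝓝 v, v' ∈ Sᶜ := mem_closure_iff_frequently.1 (hSd v)
    obtain ⟨v', hv'S, hv'1, hv'2, hv'3⟩ := (hfr.and_eventually (h1.and
      (((isOpen_ball (x := v₀) (ε := r)).eventually_mem hv).and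
        (ball_mem_nhds v (half_pos hε))))).exists
    rw [(hQ v' hv'2).2 hv'S, hprd v' hv'S, norm_prod, ← hcard v' hv'2 hv'S,
      ← Finset.prod_const] at hv'1
    refine absurd hv'1 (not_lt.2 (Finset.prod_le_prod (fun _ _ => (half_pos hε).le) fun w hw => ?_))
    have hwf := (hfin v' hv'S).mem_toFinset.1 hw
    by_contra hcon
    push Not at hcon
    have h2 : pnt (pr p v') (t w) ∈ C := ⟨w, hwf.1, by simpa using hwf.2, by simp⟩
    refine hεC (a := pnt (pr p v') (t w)) ?_ h2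
    rw [mem_ball]
    have h3 : dist (pnt (pr p v') (t w)) v' ≤ ‖lst p v' - t w‖ := by
      conv_lhs => rw [← pnt_pr_lst v', pr_pnt]
      rw [dist_pi_le_iff (norm_nonneg _)]
      intro i
      refine Fin.lastCases ?_ (fun j => ?_) i
      · simp only [pnt, Fin.snoc_last]
        rw [dist_comm, dist_eq_norm]
      · simp [pnt]
    have h4 := dist_triangle (pnt (pr p v') (t w)) v' v
    have h5 : dist v' v < ε / 2 := hv'3
    linarith
  -- second inclusion
  have hZ1 : ∀ v ∈ Ω, v ∈ C → Q v = 0 := by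
    rintro v hv ⟨w, hwK, hw1, hw2⟩
    by_contra h0
    have hvw : pnt (f w) (t w) = v := by rw [hw1, hw2, pnt_pr_lst]
    obtain ⟨V, hV, hVo, hvV⟩ := _root_.eventually_nhds_iff.1 (((hQ v hv).1.continuousAt.eventually_ne
      h0).and (isOpen_ball.eventually_mem hv))
    have hwB : f w ∈ B := by
      rw [hw1]
      exact hrB hv
    have hcw : Tendsto (fun x => pnt (f x) (t x)) (𝓝 w) (𝓝 v) := by
      have h1 : ContinuousAt (fun x => pnt (f x) (t x)) w :=
        continuous_pnt.continuousAt.comp ((h.hol w hwK).1.continuousAt.prodMk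
          (h.hol w hwK).2.continuousAt)
      have h2 := h1.tendsto
      simp only [hvw] at h2
      exact h2
    have h1 : ∀ᶠ x in 𝓝 w, (x ∈ D → x ∈ K) ∧ pnt (f x) (t x) ∈ V ∧ f x ∈ B :=
      (h.nhd w hwK hwB).and ((hcw.eventually (hVo.mem_nhds hvV)).and
        ((h.hol w hwK).1.continuousAt.eventually (h.opn.mem_nhds hwB)))
    obtain ⟨x, ⟨hxD, hxE⟩, hxK, hxV, hxB⟩ :=
      ((mem_closure_iff_frequently.1 (hdns w hwK hwB)).and_eventually h1).exists
    have hxK := hxK hxD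
    obtain ⟨s, hs1, hs2, hs3, -⟩ := hxE.sec (h.hol x hxK).1
    have hts : Tendsto s (𝓝 (f x)) (𝓝 x) := by
      have := hs1.continuousAt.tendsto
      rwa [hs2] at this
    have hct : Tendsto (fun b => pnt b (t (s b))) (𝓝 (f x)) (𝓝 (pnt (f x) (t x))) := by
      have h2 : Tendsto (fun b => (b, t (s b))) (𝓝 (f x)) (𝓝 (f x, t x)) :=
        tendsto_id.prodMk_nhds ((h.hol x hxK).2.continuousAt.tendsto.comp hts)
      exact (continuous_pnt.tendsto (f x, t x)).comp h2
    obtain ⟨b, hbT, ⟨hb1, hb2⟩, hb3, hb4⟩ := ((mem_closure_iff_frequently.1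
      (hTd (f x))).and_eventually (hs3.and ((hts.eventually (h.nhd x hxK hxB)).and
        (hct.eventually (hVo.mem_nhds hxV))))).exists
    have hbK : s b ∈ K := hb3 hb2
    obtain ⟨hb5, hb6⟩ := hV _ hb4
    have hbS : pnt b (t (s b)) ∉ S := by
      intro hcon
      apply hbT
      have : pr p (pnt b (t (s b))) ∈ T := hcon
      rwa [pr_pnt] at this
    apply hb5
    rw [(hQ _ hb6).2 hbS, hprd _ hbS]
    refine Finset.prod_eq_zero (i := s b) ?_ (by simp)
    rw [(hfin _ hbS).mem_toFinset]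
    exact ⟨hbK, by simpa using hb1⟩
  refine ⟨Q, (hQ v₀ (mem_ball_self hr)).1, fun hcon => ?_, ?_⟩
  · -- not identically zero
    have h1 : ∀ᶠ v in 𝓝 v₀, v ∈ C := by
      filter_upwards [hcon, ball_mem_nhds v₀ hr] with v h2 h3
      exact hZ2 v h3 h2
    obtain ⟨v₁, hv₁S, hv₁⟩ := ((mem_closure_iff_frequently.1 (hSd v₀)).and_eventually
      (eventually_eventually_nhds.2 h1)).exists
    have h2 : Tendsto (fun s : ℂ => pnt (pr p v₁) s) (𝓝 (lst p v₁)) (𝓝 v₁) := by
      have h3 : Continuous fun s : ℂ => pnt (pr p v₁) s :=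
        continuous_pnt.comp (Continuous.prodMk continuous_const continuous_id)
      have := h3.tendsto (lst p v₁)
      rwa [pnt_pr_lst] at this
    have h3 : {s : ℂ | pnt (pr p v₁) s ∈ C} ∈ 𝓝 (lst p v₁) := h2.eventually hv₁
    have h4 := infinite_of_mem_nhds _ h3
    apply h4
    refine ((hfin v₁ hv₁S).image t).subset ?_
    rintro s ⟨w, hw, h5, h6⟩
    rw [pr_pnt] at h5
    rw [lst_pnt] at h6
    exact ⟨w, ⟨hw, h5⟩, h6⟩
  · filter_upwards [ball_mem_nhds v₀ hr] with v hv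
    exact ⟨hZ2 v hv, hZ1 v hv⟩

end Cov

end Vale.Agent.P281.H303.Gen
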