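import Vale.Agent.P281.H303.Gen.Push3

/-! P281, project T-V, block V13d (helper303): the image of a hypersurface is a hypersurface. -/

open Set Filter Metric Vale.Agent.P281 Vale.Agent.P281.H713 Vale.Agent.P281.H64
open scoped Topology ContDiff Manifold

noncomputable section

namespace Vale.Agent.P281.H303.Gen

open Vale.Agent.P281.H511.Gen hiding pr
open Vale.Agent.P281.H64.Gen
open Vale.Agent.P281.H150.Gen (pr lst AnIn NoSub SThin)
open Vale.Agent.P281.H64.Thin (IsThinSet)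

variable {p : ℕ} {X X₁ : Type} [TopologicalSpace X] [ChartedSpace (Cm (p + 1)) X]
  [IsManifold 𝓘(ℂ, Cm (p + 1)) ω X] [TopologicalSpace X₁] [ChartedSpace (Cm (p + 1)) X₁]
  [IsManifold 𝓘(ℂ, Cm (p + 1)) ω X₁]

/-- The image of a hypersurface is small. -/
theorem image_small [T2Space X] [T2Space X₁] [CompactSpace X₁] {u : X₁ → X}
    (hu : ContMDiff 𝓘(ℂ, Cm (p + 1)) 𝓘(ℂ, Cm (p + 1)) ω u) {D : Set X₁}
    (hloc : ∀ x, ∃ g, IsLocalEq (Cm (p + 1)) D g x) :
    ∃ H : ℕ → Set X, (∀ k, IsThinSet (Cm (p + 1)) (H k)) ∧ u '' D ⊆ ⋃ k, H k := by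
  refine H150.Gen.img (p + 1) (p + 1) X₁ X u D hu (isAnalyticSet_of_isLocalEq hloc) ?_
  intro m φ hφ v hv hs
  have hn : (ω : WithTop ℕ∞) ≠ 0 := by simp
  have h1 := mfderiv_comp v (g := u) (f := φ) ((hu (φ v)).mdifferentiableAt hn)
    ((hφ v hv).1.mdifferentiableAt hn)
  set A : Cm (p + 1) →L[ℂ] Cm (p + 1) := mfderiv 𝓘(ℂ, Cm (p + 1)) 𝓘(ℂ, Cm (p + 1)) u (φ v) with hA
  set B : Cm m →L[ℂ] Cm (p + 1) := mfderiv 𝓘(ℂ, Cm m) 𝓘(ℂ, Cm (p + 1)) φ v with hB
  have hs' : Function.Surjective fun ξ => A (B ξ) := by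
    intro y
    obtain ⟨ξ, hξ⟩ := hs y
    refine ⟨ξ, ?_⟩
    have h2 : mfderiv 𝓘(ℂ, Cm m) 𝓘(ℂ, Cm (p + 1)) (u ∘ φ) v ξ = y := hξ
    rw [h1] at h2
    exact h2
  have hAs : Function.Surjective (A : Cm (p + 1) →ₗ[ℂ] Cm (p + 1)) := by
    intro y
    obtain ⟨ξ, hξ⟩ := hs' y
    exact ⟨B ξ, hξ⟩
  have hAi : Function.Injective (A : Cm (p + 1) →ₗ[ℂ] Cm (p + 1)) :=
    LinearMap.injective_iff_surjective.2 hAs
  have hBs : Function.Surjective B := by
    intro y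
    obtain ⟨ξ, hξ⟩ := hs' (A y)
    exact ⟨ξ, hAi hξ⟩
  -- in a chart
  set ψ := chartAt (Cm (p + 1)) (φ v) with hψ
  have hvs : φ v ∈ ψ.source := mem_chart_source _ _
  have hh : ContMDiffAt 𝓘(ℂ, Cm m) 𝓘(ℂ, Cm (p + 1)) ω (fun v => ψ (φ v)) v :=
    ContMDiffAt.comp v (H150.Gen.holAt_chart hvs) (hφ v hv).1
  have hc : ContDiffAt ℂ ω (fun v => ψ (φ v)) v := contMDiffAt_iff_contDiffAt.1 hh
  have hsurj : Function.Surjective (fderiv ℂ (fun v => ψ (φ v)) v) := by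
    have h2 := dV_comp (E := Cm m) (E' := Cm (p + 1)) (h := (ψ : X₁ → Cm (p + 1))) (f := φ)
      (x := v) (HolV.chart hvs) (hφ v hv).1
    have h3 : dV (Cm m) (fun z => ψ (φ z)) v = fderiv ℂ (fun v => ψ (φ v)) v := by
      unfold dV
      exact mfderiv_eq_fderiv
    rw [← h3, h2]
    have h4 := (H399.Gen.dV_inj (p := p) hvs).2
    intro y
    obtain ⟨ζ, hζ⟩ := h4 y
    obtain ⟨ξ, hξ⟩ := hBs ζ
    refine ⟨ξ, ?_⟩
    show dV (Cm (p + 1)) ψ (φ v) (B ξ) = y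
    rw [hξ, hζ]
  have hmap := (hc.hasStrictFDerivAt hn).map_nhds_eq_of_surj (LinearMap.range_eq_top.2 hsurj)
  have hD : ∀ᶠ z in 𝓝 (ψ (φ v)), ψ.symm z ∈ D := by
    rw [← hmap, eventually_map]
    filter_upwards [isOpen_ball.mem_nhds hv, (hφ v hv).1.continuousAt.eventually
      (ψ.open_source.mem_nhds hvs)] with v' h2 h3
    rw [ψ.left_inv h3]
    exact (hφ v' h2).2
  have hD' : ∀ᶠ x in 𝓝 (φ v), x ∈ D := (ψ.eventually_nhds' (fun x => x ∈ D) hvs).1 hD
  obtain ⟨g, hg⟩ := hloc (φ v)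
  apply isLocalEq_not_zero hg
  filter_upwards [hD', isLocalEq_mem_iff hg] with x h2 h3
  exact h3.1 h2

/-- A proper subspace of the target is closed with empty interior. -/
theorem nowhere {u : Cm (p + 1) →L[ℂ] Cm (p + 1)} {e : Cm (p + 1) →L[ℂ] ℂ} (he : e ≠ 0) :
    IsClosed (((LinearMap.ker (e : Cm (p + 1) →ₗ[ℂ] ℂ)).map (u : Cm (p + 1) →ₗ[ℂ] Cm (p + 1)) :
      Submodule ℂ (Cm (p + 1))) : Set (Cm (p + 1))) ∧
    interior (((LinearMap.ker (e : Cm (p + 1) →ₗ[ℂ] ℂ)).map (u : Cm (p + 1) →ₗ[ℂ] Cm (p + 1)) :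
      Submodule ℂ (Cm (p + 1))) : Set (Cm (p + 1))) = ∅ := by
  set S := (LinearMap.ker (e : Cm (p + 1) →ₗ[ℂ] ℂ)).map (u : Cm (p + 1) →ₗ[ℂ] Cm (p + 1)) with hS
  refine ⟨S.closed_of_finiteDimensional, ?_⟩
  by_contra hne
  have h1 : S = ⊤ := S.eq_top_of_nonempty_interior' (nonempty_iff_ne_empty.2 hne)
  have h2 : Module.finrank ℂ S ≤ Module.finrank ℂ (LinearMap.ker (e : Cm (p + 1) →ₗ[ℂ] ℂ)) :=
    Submodule.finrank_map_le _ _
  have h3 : Module.finrank ℂ S = p + 1 := by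
    rw [h1, finrank_top]
    simp
  have h4 := LinearMap.finrank_range_add_finrank_ker (e : Cm (p + 1) →ₗ[ℂ] ℂ)
  have h5 : 0 < Module.finrank ℂ (LinearMap.range (e : Cm (p + 1) →ₗ[ℂ] ℂ)) := by
    rw [Module.finrank_pos_iff_exists_ne_zero]
    obtain ⟨v', hv'⟩ : ∃ v', e v' ≠ 0 := by
      by_contra hcon
      push Not at hcon
      exact he (ContinuousLinearMap.ext hcon)
    refine ⟨⟨_, LinearMap.mem_range_self _ v'⟩, ?_⟩
    intro hcon
    exact hv' (congrArg Subtype.val hcon)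
  have h6 : Module.finrank ℂ (Cm (p + 1)) = p + 1 := by simp
  omega

/-- **The image of a hypersurface is a hypersurface.** -/
theorem exists_eq [T2Space X] [T2Space X₁] [CompactSpace X₁] (hdir : DirStmt) (hns : NsStmt)
    {u : X₁ → X} (hu : ContMDiff 𝓘(ℂ, Cm (p + 1)) 𝓘(ℂ, Cm (p + 1)) ω u) {D : Set X₁}
    (hDc : IsClosed D) (hloc : ∀ x, ∃ g, IsLocalEq (Cm (p + 1)) D g x)
    (hG : D ⊆ closure {w | w ∈ D ∧ (∃ g, IsLocalEq (Cm (p + 1)) D g w ∧
      J.dif (Cm (p + 1)) g w ≠ 0) ∧ Function.Injective (dM (Cm (p + 1)) (Cm (p + 1)) u w)})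
    (hne : D.Nonempty) (x₀ : X) :
    ∃ g : X → ℂ, J.HolAt (Cm (p + 1)) g x₀ ∧ (¬ ∀ᶠ z in 𝓝 x₀, g z = 0) ∧
      ∀ᶠ z in 𝓝 x₀, z ∈ u '' D ↔ g z = 0 := by
  classical
  have hsc : SecondCountableTopology X₁ :=
    ChartedSpace.secondCountable_of_sigmaCompact (Cm (p + 1)) X₁
  set G : Set X₁ := {w | w ∈ D ∧ (∃ g, IsLocalEq (Cm (p + 1)) D g w ∧
      J.dif (Cm (p + 1)) g w ≠ 0) ∧ Function.Injective (dM (Cm (p + 1)) (Cm (p + 1)) u w)} with hGdef
  have hGne : Nonempty G := by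
    obtain ⟨w, hw⟩ := hne
    have h1 : (closure G).Nonempty := ⟨w, hG hw⟩
    exact (closure_nonempty_iff.1 h1).to_subtype
  obtain ⟨seq, hseq⟩ := TopologicalSpace.exists_dense_seq G
  have hseq' : D ⊆ closure (range fun j => (seq j : X₁)) := by
    refine hG.trans (closure_minimal ?_ isClosed_closure)
    intro w hw
    have h1 : (⟨w, hw⟩ : G) ∈ closure (range seq) := hseq ⟨w, hw⟩
    have h2 := image_closure_subset_closure_image continuous_subtype_val (mem_image_of_mem _ h1)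
    rw [← range_comp] at h2
    exact h2
  choose g hg hdg using fun j => (seq j).2.2.1
  -- the chart
  set φ := chartAt (Cm (p + 1)) x₀ with hφ
  have hx₀ : x₀ ∈ φ.source := mem_chart_source _ x₀
  obtain ⟨R, hR, hRt⟩ := Metric.nhds_basis_closedBall.mem_iff.1
    (φ.open_target.mem_nhds (φ.map_source hx₀))
  have hDk : IsCompact D := hDc.isCompact
  have huD : IsClosed (u '' D) := (hDk.image hu.continuous).isClosed
  set C : Set (Cm (p + 1)) := closedBall (φ x₀) R ∩ φ.symm ⁻¹' (u '' D) with hC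
  have hcs : ContinuousOn φ.symm (closedBall (φ x₀) R) := φ.continuousOn_symm.mono hRt
  have hCc : IsClosed C := hcs.preimage_isClosed_of_isClosed isClosed_closedBall huD
  obtain ⟨H, hH, hHu⟩ := image_small hu hloc
  have hH' : ∀ k, IsThinSet (Cm (p + 1)) (closedBall (φ x₀) R ∩ φ.symm ⁻¹' (H k)) := by
    intro k
    refine H150.Gen.thin_of_isClosed
      (hcs.preimage_isClosed_of_isClosed isClosed_closedBall (hH k).1) ?_
    rintro v ⟨hv, -⟩
    have hvt := hRt hv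
    obtain ⟨h, hh, hh0, hhz⟩ := (hH k).2 (φ.symm v)
    refine ⟨h ∘ φ.symm, ?_, fun hcon => hh0 ?_, ?_⟩
    · have h1 := HolV.rep (φ.map_target hvt) (hh : HolV (Cm (p + 1)) h _)
      rw [← hφ, φ.right_inv hvt] at h1
      exact H150.Gen.holAt_of_analyticAt h1.analyticAt
    · refine (φ.eventually_nhds' (fun x => h x = 0) (φ.map_target hvt)).1 ?_
      rw [φ.right_inv hvt]
      exact hcon
    · have h1 := (φ.continuousAt_symm hvt).eventually hhz
      filter_upwards [h1] with z h2 h3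
      exact h2 h3.2
  have hCH : C ⊆ ⋃ k, closedBall (φ x₀) R ∩ φ.symm ⁻¹' (H k) := by
    rintro v ⟨hv, hvD⟩
    obtain ⟨k, hk⟩ := mem_iUnion.1 (hHu hvD)
    exact mem_iUnion.2 ⟨k, hv, hk⟩
  -- the direction
  set Sj : ℕ → Submodule ℂ (Cm (p + 1)) := fun j =>
    (LinearMap.ker (dV (Cm (p + 1)) (g j) (seq j) : Cm (p + 1) →ₗ[ℂ] ℂ)).map
      (dV (Cm (p + 1)) (fun x => φ (u x)) (seq j) : Cm (p + 1) →ₗ[ℂ] Cm (p + 1)) with hSj
  obtain ⟨η, hηR, hηN, hηC⟩ := hdir (p + 1) C (φ x₀) R _ (fun j => (Sj j : Set (Cm (p + 1)))) hR hCc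
    hH' hCH (fun j => nowhere (hdg j))
  have hη0 : η ≠ 0 := by
    rintro rfl
    exact hηN 0 (Sj 0).zero_mem
  obtain ⟨L, hL⟩ := SeparatingDual.exists_continuousLinearEquiv_apply_eq (R := ℂ) (V := Cm (p + 1))
    (x := η) (y := pnt (0 : Cm p) 1) hη0 (by
      intro h0
      have := congrArg (lst p) h0
      rw [lst_pnt, map_zero] at this
      exact one_ne_zero this)
  set v₀ : Cm (p + 1) := L (φ x₀) with hv₀
  set Ψ : Cm p × ℂ → Cm (p + 1) := fun q => L.symm (pnt q.1 (lst p v₀ + q.2)) with hΨ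
  have hΨc : Continuous Ψ := L.symm.continuous.comp (continuous_pnt.comp
    (continuous_fst.prodMk (continuous_const.add continuous_snd)))
  have hΨ0 : ∀ s : ℂ, Ψ (pr p v₀, s) = φ x₀ + s • η := by
    intro s
    rw [hΨ]
    show L.symm (pnt (pr p v₀) (lst p v₀ + s)) = φ x₀ + s • η
    rw [L.symm_apply_eq, map_add, map_smul, hL, ← hv₀]
    funext i
    refine Fin.lastCases ?_ (fun j => ?_) i
    · simp
    · simp [pnt]
  have hΨL : ∀ v, Ψ (pr p (L v), lst p (L v) - lst p v₀) = v := by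
    intro v
    show L.symm (pnt (pr p (L v)) (lst p v₀ + (lst p (L v) - lst p v₀))) = v
    rw [add_sub_cancel, pnt_pr_lst, L.symm_apply_apply]
  have hLΨ : ∀ q, L (Ψ q) = pnt q.1 (lst p v₀ + q.2) := fun q => L.apply_symm_apply _
  -- the tube
  set O : Set (Cm p × ℂ) := {q | Ψ q ∈ ball (φ x₀) R ∧ (‖q.2‖ = 1 → Ψ q ∉ C)} with hO
  have hOo : IsOpen O := by
    have h1 : O = Ψ ⁻¹' ball (φ x₀) R ∩ ({q | ‖q.2‖ ≠ 1} ∪ Ψ ⁻¹' Cᶜ) := by
      ext q
      constructor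
      · rintro ⟨h1, h2⟩
        refine ⟨h1, ?_⟩
        by_cases h3 : ‖q.2‖ = 1
        · exact Or.inr (h2 h3)
        · exact Or.inl h3
      · rintro ⟨h1, h2⟩
        refine ⟨h1, fun h3 => ?_⟩
        rcases h2 with h2 | h2
        · exact absurd h3 h2
        · exact h2
    rw [h1]
    refine (isOpen_ball.preimage hΨc).inter (IsOpen.union ?_ (hCc.isOpen_compl.preimage hΨc))
    exact isOpen_ne_fun (continuous_snd.norm) continuous_const
  obtain ⟨U, U', hU, hU', hvU, hdU', hUU'⟩ := generalized_tube_lemma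
    (isCompact_singleton (x := pr p v₀)) (isCompact_closedBall (0 : ℂ) 1) hOo (by
      rintro ⟨b, s⟩ ⟨hb, hs⟩
      rw [mem_singleton_iff] at hb
      simp only at hb hs
      subst hb
      rw [mem_closedBall_zero_iff] at hs
      refine ⟨?_, fun h1 => ?_⟩
      · rw [hΨ0, mem_ball, dist_eq_norm, add_sub_cancel_left, norm_smul]
        calc ‖s‖ * ‖η‖ ≤ 1 * ‖η‖ := by gcongr
          _ < R := by rw [one_mul]; exact hηR
      · rw [hΨ0]
        exact hηC s h1)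
  obtain ⟨r, hr, hrU⟩ := Metric.nhds_basis_closedBall.mem_iff.1
    (hU.mem_nhds (hvU (mem_singleton _)))
  have hbox : ∀ b ∈ closedBall (pr p v₀) r, ∀ s ∈ closedBall (0 : ℂ) 1, (b, s) ∈ O :=
    fun b hb s hs => hUU' (mk_mem_prod (hrU hb) (hdU' hs))
  set Box : Set (Cm (p + 1)) := Ψ '' (closedBall (pr p v₀) r ×ˢ closedBall (0 : ℂ) 1) with hBox
  have hBoxc : IsCompact Box :=
    ((isCompact_closedBall _ _).prod (isCompact_closedBall _ _)).image hΨc
  have hBoxR : Box ⊆ ball (φ x₀) R := by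
    rintro _ ⟨⟨b, s⟩, ⟨hb, hs⟩, rfl⟩
    exact (hbox b hb s hs).1
  have hBoxt : Box ⊆ φ.target := fun v hv => hRt (ball_subset_closedBall (hBoxR hv))
  set K : Set X₁ := D ∩ u ⁻¹' (φ.symm '' Box) with hK
  have hKc : IsClosed K := hDc.inter (((hBoxc.image_of_continuousOn
    (φ.continuousOn_symm.mono hBoxt)).isClosed).preimage hu.continuous)
  have hKs : ∀ w ∈ K, u w ∈ φ.source ∧ φ (u w) ∈ Box := by
    rintro w ⟨hwD, v, hv, hvw⟩
    rw [← hvw]
    refine ⟨φ.map_target (hBoxt hv), ?_⟩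
    rw [φ.right_inv (hBoxt hv)]
    exact hv
  have hKs' : ∀ w ∈ D, u w ∈ φ.source → φ (u w) ∈ Box → w ∈ K := by
    intro w hwD hws hwB
    exact ⟨hwD, φ (u w), hwB, φ.left_inv hws⟩
  set f : X₁ → Cm p := fun w => pr p (L (φ (u w))) with hf
  set t : X₁ → ℂ := fun w => lst p (L (φ (u w))) with ht
  have hol : ∀ w, u w ∈ φ.source → HolV (Cm (p + 1)) (fun w => φ (u w)) w := fun w hw =>
    HolV.comp (E' := Cm (p + 1)) (h := (φ : X → Cm (p + 1))) (HolV.chart hw) (hu w)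
  have holf : ∀ w, u w ∈ φ.source → HolV (Cm (p + 1)) f w := fun w hw =>
    HolV.comp_contDiff (G := fun v => pr p (L v))
      (((pr p).comp (L : Cm (p + 1) →L[ℂ] Cm (p + 1))).contDiff.contDiffAt) (hol w hw)
  have holt : ∀ w, u w ∈ φ.source → HolV (Cm (p + 1)) t w := fun w hw =>
    HolV.comp_contDiff (G := fun v => lst p (L v))
      (((lst p).comp (L : Cm (p + 1) →L[ℂ] Cm (p + 1))).contDiff.contDiffAt) (hol w hw)
  have hinBox : ∀ v, pr p (L v) ∈ closedBall (pr p v₀) r → ‖lst p (L v) - lst p v₀‖ ≤ 1 →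
      v ∈ Box := by
    intro v h1 h2
    exact ⟨(pr p (L v), lst p (L v) - lst p v₀), ⟨h1, by simpa using h2⟩, hΨL v⟩
  have hofBox : ∀ v ∈ Box, pr p (L v) ∈ closedBall (pr p v₀) r ∧
      ‖lst p (L v) - lst p v₀‖ ≤ 1 := by
    rintro _ ⟨⟨b, s⟩, ⟨hb, hs⟩, rfl⟩
    rw [hLΨ]
    simp only [pr_pnt, lst_pnt, add_sub_cancel_left]
    exact ⟨hb, by simpa using hs⟩
  have hcov : Cov D K f t (ball (pr p v₀) r) := by
    refine ⟨hKc.isCompact, inter_subset_left, fun w hw => ⟨holf w (hKs w hw).1,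
      holt w (hKs w hw).1⟩, fun w hw hwB => ?_, isOpen_ball⟩
    obtain ⟨hws, hwBox⟩ := hKs w hw
    obtain ⟨h1, h2⟩ := hofBox _ hwBox
    have h3 : ‖t w - lst p v₀‖ < 1 := by
      refine lt_of_le_of_ne h2 fun h3 => ?_
      have h4 := hbox _ h1 (lst p (L (φ (u w))) - lst p v₀) (by simpa using h2)
      have h5 := h4.2 h3
      rw [hΨL] at h5
      apply h5
      refine ⟨ball_subset_closedBall (hBoxR hwBox), ?_⟩
      rw [mem_preimage, φ.left_inv hws]
      exact mem_image_of_mem u hw.1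
    have h4 : ∀ᶠ x in 𝓝 w, ‖t x - lst p v₀‖ < 1 :=
      ((holt w hws).continuousAt.sub continuousAt_const).norm.eventually_lt_const h3
    have h5 : ∀ᶠ x in 𝓝 w, f x ∈ ball (pr p v₀) r :=
      (holf w hws).continuousAt.eventually (isOpen_ball.mem_nhds hwB)
    have h6 : ∀ᶠ x in 𝓝 w, u x ∈ φ.source :=
      hu.continuous.continuousAt.eventually (φ.open_source.mem_nhds hws)
    filter_upwards [h4, h5, h6] with x h7 h8 h9 h10
    exact hKs' x h10 h9 (hinBox _ (ball_subset_closedBall h8) h7.le)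
  have hdns : ∀ w ∈ K, f w ∈ ball (pr p v₀) r → w ∈ closure {x | x ∈ D ∧ EtAt D f x} := by
    intro w hw _
    obtain ⟨hws, -⟩ := hKs w hw
    have h1 := hseq' hw.1
    rw [mem_closure_iff_frequently] at h1 ⊢
    refine (h1.and_eventually (hu.continuous.continuousAt.eventually
      (φ.open_source.mem_nhds hws))).mono ?_
    rintro x ⟨⟨j, rfl⟩, hxs⟩
    have hxs : u (seq j : X₁) ∈ φ.source := hxs
    refine ⟨(seq j).2.1, (etAt_iff (seq j).2.1 (hg j)).2 fun ξ h2 h3 => ?_⟩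
    have e1 : dV (Cm (p + 1)) f (seq j) ξ =
        pr p (L (dV (Cm (p + 1)) (fun x => φ (u x)) (seq j) ξ)) := by
      have h4 : HasMFDerivAt 𝓘(ℂ, Cm (p + 1)) 𝓘(ℂ, Cm (p + 1)) (fun x => φ (u x)) (seq j)
          (dV (Cm (p + 1)) (fun x => φ (u x)) (seq j)) := (hol _ hxs).mdiff.hasMFDerivAt
      have h5 : HasMFDerivAt 𝓘(ℂ, Cm (p + 1)) 𝓘(ℂ, Cm p)
          ((pr p).comp (L : Cm (p + 1) →L[ℂ] Cm (p + 1))) (φ (u (seq j)))
          ((pr p).comp (L : Cm (p + 1) →L[ℂ] Cm (p + 1))) :=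
        ((pr p).comp (L : Cm (p + 1) →L[ℂ] Cm (p + 1))).hasMFDerivAt
      have h6 := HasMFDerivAt.comp (seq j : X₁) h5 h4
      have h7 : dV (Cm (p + 1)) f (seq j) = ((pr p).comp (L : Cm (p + 1) →L[ℂ] Cm (p + 1))).comp
          (dV (Cm (p + 1)) (fun x => φ (u x)) (seq j)) := h6.mfderiv
      rw [h7]
      rfl
    set ζ := dV (Cm (p + 1)) (fun x => φ (u x)) (seq j) ξ with hζ
    have hζS : ζ ∈ Sj j := ⟨ξ, by simpa using h3, rfl⟩
    rw [e1] at h2
    have h4 : L ζ = (lst p (L ζ)) • L η := by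
      rw [hL, ← pnt_pr_lst (L ζ), h2]
      funext i
      refine Fin.lastCases ?_ (fun k => ?_) i
      · simp
      · simp [pnt]
    rw [← map_smul] at h4
    have h5 : ζ = (lst p (L ζ)) • η := L.injective h4
    have h6 : lst p (L ζ) = 0 := by
      by_contra hc
      apply hηN j
      have h7 : η = (lst p (L ζ))⁻¹ • ζ := by
        rw [h5, map_smul, map_smul, hL, lst_pnt, smul_smul, smul_eq_mul, mul_one]
        rw [inv_mul_cancel₀ hc, one_smul]
      rw [h7]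
      exact (Sj j).smul_mem _ hζS
    rw [h6, zero_smul] at h5
    have h7 : dV (Cm (p + 1)) (fun x => φ (u x)) (seq j) =
        (dV (Cm (p + 1)) (φ : X → Cm (p + 1)) (u (seq j))).comp
          (dM (Cm (p + 1)) (Cm (p + 1)) u (seq j)) :=
      dV_comp (E' := Cm (p + 1)) (h := (φ : X → Cm (p + 1))) (HolV.chart hxs) (hu _)
    rw [hζ, h7] at h5
    have h8 := (H399.Gen.dV_inj (p := p) hxs).1
    have h9 : dM (Cm (p + 1)) (Cm (p + 1)) u (seq j) ξ = 0 := by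
      apply h8
      rw [map_zero]
      exact h5
    apply (seq j).2.2.2
    rw [map_zero]
    exact h9
  obtain ⟨Q, hQ, hQ0, hQz⟩ := hcov.main hns hloc hdns (v₀ := v₀) (mem_ball_self hr)
  have hLφ : Tendsto (fun x => L (φ x)) (𝓝 x₀) (𝓝 v₀) :=
    (L.continuous.tendsto _).comp (φ.continuousAt hx₀).tendsto
  refine ⟨fun x => Q (L (φ x)), ?_, fun hcon => hQ0 ?_, ?_⟩
  · have h1 : ContDiffAt ℂ ω (fun v => Q (L v)) (φ x₀) :=
      ContDiffAt.comp (φ x₀) hQ.contDiffAt L.contDiff.contDiffAt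
    exact HolV.comp_contDiff (G := fun v => Q (L v)) h1 (HolV.chart hx₀)
  · have h1 : ∀ᶠ v in 𝓝 (φ x₀), Q (L v) = 0 := by
      refine ((φ.eventually_nhds' (fun x => Q (L (φ x)) = 0) hx₀).2 hcon).mp ?_
      filter_upwards [φ.open_target.mem_nhds (φ.map_source hx₀)] with v h2 h3
      rwa [φ.right_inv h2] at h3
    have h2 : Tendsto L.symm (𝓝 v₀) (𝓝 (φ x₀)) := by
      have := L.symm.continuous.tendsto v₀
      rwa [hv₀, L.symm_apply_apply] at this
    filter_upwards [h2.eventually h1] with v h3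
    rwa [L.apply_symm_apply] at h3
  · have h1 : ∀ᶠ x in 𝓝 x₀, pr p (L (φ x)) ∈ ball (pr p v₀) r := by
      have h2 : Tendsto (fun x => pr p (L (φ x))) (𝓝 x₀) (𝓝 (pr p v₀)) :=
        ((pr p).continuous.tendsto v₀).comp hLφ
      exact h2.eventually (ball_mem_nhds _ hr)
    have h2 : ∀ᶠ x in 𝓝 x₀, ‖lst p (L (φ x)) - lst p v₀‖ < 1 := by
      have h3 : Tendsto (fun x => ‖lst p (L (φ x)) - lst p v₀‖) (𝓝 x₀)
          (𝓝 ‖lst p v₀ - lst p v₀‖) :=
        ((((lst p).continuous.tendsto v₀).comp hLφ).sub_const _).norm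
      rw [sub_self, norm_zero] at h3
      exact h3.eventually_lt_const one_pos
    filter_upwards [hLφ.eventually hQz, h1, h2, φ.open_source.mem_nhds hx₀] with x h3 h4 h5 h6
    rw [h3]
    constructor
    · rintro ⟨w, hwD, rfl⟩
      exact ⟨w, hKs' w hwD h6 (hinBox _ (ball_subset_closedBall h4) h5.le), rfl, rfl⟩
    · rintro ⟨w, hwK, h7, h8⟩
      refine ⟨w, hwK.1, ?_⟩
      have h9 : L (φ (u w)) = L (φ x) := by
        rw [← pnt_pr_lst (L (φ (u w))), ← pnt_pr_lst (L (φ x))]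
        have h10 : pr p (L (φ (u w))) = pr p (L (φ x)) := h7
        have h11 : lst p (L (φ (u w))) = lst p (L (φ x)) := h8
        rw [h10, h11]
      exact φ.injOn (hKs w hwK).1 h6 (L.injective h9)

end Vale.Agent.P281.H303.Gen
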