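import Vale.Agent.P281.H303.Gen.Hankel

/-! P281, project T-V, block V6 (helper303): the zeros of a holomorphic function on parallel lines
near a point. -/

open Set Filter Metric Topology Vale.Agent.P281.MF

namespace Vale.Agent.P281.H303.Gen

set_option linter.unusedSectionVars false

variable {E : Type*} [NormedAddCommGroup E] [NormedSpace ℂ E] [FiniteDimensional ℂ E]

/-- A direction and radii, adapted to `g` near `x₀`. -/
structure Rad (g : E → ℂ) (p : E → Prop) (x₀ η : E) (r ρ c M : ℝ) : Prop where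
  r0 : 0 < r
  ρ0 : 0 < ρ
  c0 : 0 < c
  an : ∀ z ∈ ball x₀ r, ∀ t : ℂ, ‖t‖ < 6 * ρ → AnalyticAt ℂ g (z + t • η) ∧ p (z + t • η)
  bd : ∀ z ∈ ball x₀ r, ∀ t : ℂ, ‖t‖ ≤ 5 * ρ → ‖g (z + t • η)‖ ≤ M
  lo : ∀ z ∈ ball x₀ r, ∀ t : ℂ, ρ / 2 ≤ ‖t‖ → ‖t‖ ≤ 2 * ρ → c ≤ ‖g (z + t • η)‖

theorem exists_rad {g : E → ℂ} {x₀ : E} (hg : AnalyticAt ℂ g x₀)
    (hne : ¬ ∀ᶠ x in 𝓝 x₀, g x = 0) {p : E → Prop} (hp : ∀ᶠ x in 𝓝 x₀, p x) :
    ∃ (η : E) (r ρ c M : ℝ), Rad g p x₀ η r ρ c M := by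
  have : CompleteSpace E := FiniteDimensional.complete ℂ E
  obtain ⟨η, r, ρ, c, M, hr, hρ, hc, h1, h2, h3⟩ := exists_radii hg hg hne
    (hg.eventually_analyticAt.and hp)
  exact ⟨η, r, ρ, c, M, hr, hρ, hc, fun z hz t ht => (h1 z hz t ht).self_of_nhds.2.2, h2, h3⟩

open Classical in
/-- The zeros `t` of `g (z + t η)`, `|t| ≤ ρ`. -/
noncomputable def zs (g : E → ℂ) (η : E) (ρ : ℝ) (z : E) : Finset ℂ :=
  if h : {t : ℂ | ‖t‖ ≤ ρ ∧ g (z + t • η) = 0}.Finite then h.toFinset else ∅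

namespace Rad

variable {g : E → ℂ} {p : E → Prop} {x₀ η : E} {r ρ c M : ℝ} (h : Rad g p x₀ η r ρ c M)

include h

theorem diff_line {z : E} (hz : z ∈ ball x₀ r) :
    DifferentiableOn ℂ (fun t : ℂ => g (z + t • η)) (ball 0 (6 * ρ)) := by
  intro t ht
  rw [mem_ball_zero_iff] at ht
  exact (DifferentiableAt.comp (g := g) (f := fun t : ℂ => z + t • η) t
    (h.an z hz t ht).1.differentiableAt (by fun_prop)).differentiableWithinAt

theorem lo' {z : E} (hz : z ∈ ball x₀ r) : c ≤ ‖g (z + (ρ : ℂ) • η)‖ := by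
  have hρ := h.ρ0
  have hn : ‖(ρ : ℂ)‖ = ρ := by rw [Complex.norm_real, Real.norm_of_nonneg hρ.le]
  exact h.lo z hz (ρ : ℂ) (by rw [hn]; linarith) (by rw [hn]; linarith)

theorem mem_zs {z : E} (hz : z ∈ ball x₀ r) {t : ℂ} :
    t ∈ zs g η ρ z ↔ ‖t‖ ≤ ρ ∧ g (z + t • η) = 0 := by
  have h1 : {t : ℂ | ‖t‖ ≤ ρ ∧ g (z + t • η) = 0}.Finite :=
    finite_zeros (f := fun t => g (z + t • η)) h.ρ0 h.c0 (h.diff_line hz) (h.bd z hz) (h.lo' hz)
  rw [zs, dif_pos h1, Set.Finite.mem_toFinset]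
  rfl

theorem small {z : E} (hz : z ∈ ball x₀ r) {t : ℂ} (ht : ‖t‖ ≤ 2 * ρ) (h0 : g (z + t • η) = 0) :
    ‖t‖ < ρ / 2 := by
  by_contra hcon
  push Not at hcon
  have := h.lo z hz t hcon ht
  rw [h0, norm_zero] at this
  linarith [h.c0]

theorem small_zs {z : E} (hz : z ∈ ball x₀ r) {t : ℂ} (ht : t ∈ zs g η ρ z) : ‖t‖ < ρ / 2 := by
  have h1 := (h.mem_zs hz).1 ht
  exact h.small hz (by linarith [h.ρ0, h1.1]) h1.2

theorem exists_card_le : ∃ K : ℕ, ∀ z ∈ ball x₀ r, (zs g η ρ z).card ≤ K := by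
  have hρ := h.ρ0
  have hc := h.c0
  obtain ⟨K, hK⟩ : ∃ K : ℕ, M / 2 ^ K < c := by
    obtain ⟨K, hK⟩ := pow_unbounded_of_one_lt (M / c) (one_lt_two)
    refine ⟨K, ?_⟩
    rw [div_lt_iff₀ (by positivity)]
    rw [div_lt_iff₀ hc] at hK
    linarith
  refine ⟨K, fun z hz => ?_⟩
  have hM0 : 0 ≤ M := (norm_nonneg _).trans (h.bd z hz 0 (by simp; positivity))
  by_contra hcon
  push Not at hcon
  have h1 := zeros_bound hρ (zs g η ρ z).card (zs g η ρ z) rfl (fun t => g (z + t • η)) M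
    (h.diff_line hz) (h.bd z hz) (fun t ht => (h.mem_zs hz).1 ht) (ρ : ℂ) (by
        rw [Complex.norm_real, Real.norm_of_nonneg hρ.le])
  have h2 := h.lo' hz
  have h3 : M / 2 ^ (zs g η ρ z).card ≤ M / 2 ^ K := by
    gcongr
    · norm_num
  linarith

theorem exists_max : ∃ N : ℕ, (∃ z₁ ∈ ball x₀ r, (zs g η ρ z₁).card = N) ∧
    ∀ z ∈ ball x₀ r, (zs g η ρ z).card ≤ N := by
  obtain ⟨K, hK⟩ := h.exists_card_le
  set S : Set ℕ := (fun z => (zs g η ρ z).card) '' ball x₀ r with hS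
  have hne : S.Nonempty := ⟨_, x₀, mem_ball_self h.r0, rfl⟩
  have hbdd : BddAbove S := ⟨K, by
    rintro _ ⟨z, hz, rfl⟩
    exact hK z hz⟩
  obtain ⟨z₁, hz₁, h1⟩ := Nat.sSup_mem hne hbdd
  exact ⟨sSup S, ⟨z₁, hz₁, h1⟩, fun z hz => le_csSup hbdd ⟨z, hz, rfl⟩⟩

theorem psum_zs {z : E} (hz : z ∈ ball x₀ r) : ∃ m : ℂ → ℕ, (∀ t ∈ zs g η ρ z, 1 ≤ m t) ∧
    ∀ k : ℕ, psum g η 0 ρ k z = ∑ t ∈ zs g η ρ z, m t * t ^ k := by
  have hρ := h.ρ0
  refine psum_eq hρ (U := ball 0 (6 * ρ)) isOpen_ball (closedBall_subset_ball (by linarith)) ?_ ?_ ?_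
  · intro t ht
    exact (h.an z hz t (by rwa [mem_ball_zero_iff] at ht)).1.differentiableAt
  · intro t ht h0
    rw [mem_sphere_zero_iff_norm] at ht
    have := h.small hz (by linarith) h0
    linarith
  · intro t
    rw [h.mem_zs hz, mem_ball_zero_iff]
    constructor
    · rintro ⟨h1, h2⟩
      exact ⟨by linarith [h.small hz (by linarith) h2], h2⟩
    · rintro ⟨h1, h2⟩
      exact ⟨h1.le, h2⟩

end Rad

/-- The Hankel determinant of the power sums of the zeros. -/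
noncomputable def den (g : E → ℂ) (η : E) (ρ : ℝ) (N : ℕ) (z : E) : ℂ :=
  (hankel N fun k => psum g η 0 ρ k z).det

namespace Rad

variable {g : E → ℂ} {p : E → Prop} {x₀ η : E} {r ρ c M : ℝ} (h : Rad g p x₀ η r ρ c M)

include h

theorem den_diff (N : ℕ) : DifferentiableOn ℂ (den g η ρ N) (ball x₀ r) := by
  have hρ := h.ρ0
  have h1 : ∀ k, DifferentiableOn ℂ (psum g η 0 ρ k) (ball x₀ r) := by
    intro k
    refine psum_diff hρ isOpen_ball (W := {t : ℂ | ρ / 2 < ‖t‖ ∧ ‖t‖ < 2 * ρ})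
      ((isOpen_lt continuous_const continuous_norm).inter
        (isOpen_lt continuous_norm continuous_const)) ?_ ?_ k
    · intro t ht
      rw [mem_sphere_zero_iff_norm] at ht
      constructor <;> linarith
    · rintro z hz t ⟨ht1, ht2⟩
      refine ⟨(h.an z hz t (by linarith)).1, fun h0 => ?_⟩
      have := h.small hz ht2.le h0
      linarith
  have h2 : den g η ρ N = fun z => ∑ σ : Equiv.Perm (Fin N),
      ((Equiv.Perm.sign σ : ℤ) : ℂ) * ∏ i, psum g η 0 ρ ((σ i : ℕ) + i) z := by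
    funext z
    rw [den, Matrix.det_apply']
    rfl
  rw [h2]
  intro z hz
  refine (DifferentiableWithinAt.fun_sum fun σ _ => ?_)
  refine DifferentiableWithinAt.const_mul ?_ _
  classical
  exact (HasFDerivWithinAt.finsetProd fun i _ =>
    (h1 ((σ i : ℕ) + i) z hz).hasFDerivWithinAt).differentiableWithinAt

theorem den_analytic (N : ℕ) {z : E} (hz : z ∈ ball x₀ r) : AnalyticAt ℂ (den g η ρ N) z :=
  analyticAt_of_differentiableOn isOpen_ball (h.den_diff N) hz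

theorem den_ne_iff {N : ℕ} (hN : ∀ z ∈ ball x₀ r, (zs g η ρ z).card ≤ N) {z : E}
    (hz : z ∈ ball x₀ r) : den g η ρ N z ≠ 0 ↔ (zs g η ρ z).card = N := by
  obtain ⟨m, hm, hs⟩ := h.psum_zs hz
  constructor
  · intro h1
    by_contra h2
    exact h1 (hankel_det_eq_zero hs (lt_of_le_of_ne (hN z hz) h2))
  · intro h1
    exact hankel_det_ne_zero hs hm h1

/-- `den` does not vanish identically near any point of the ball. -/
theorem den_frequently {N : ℕ} (hN : ∀ z ∈ ball x₀ r, (zs g η ρ z).card ≤ N)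
    (hN' : ∃ z₁ ∈ ball x₀ r, (zs g η ρ z₁).card = N) {z : E} (hz : z ∈ ball x₀ r) :
    ∃ᶠ w in 𝓝 z, den g η ρ N w ≠ 0 := by
  intro hcon
  have h1 : ∀ᶠ w in 𝓝 z, den g η ρ N w = 0 := by simpa using hcon
  obtain ⟨z₁, hz₁, hc⟩ := hN'
  have h2 : AnalyticOnNhd ℂ (den g η ρ N) (ball x₀ r) := fun w hw => h.den_analytic N hw
  exact (h.den_ne_iff hN hz₁).2 hc
    (h2.eqOn_zero_of_preconnected_of_eventuallyEq_zero (convex_ball x₀ r).isPreconnected hz h1 hz₁)

/-- Translation along the direction `η`. -/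
theorem zs_translate {z : E} {t : ℂ} (hz : z ∈ ball x₀ r) (hzt : z + t • η ∈ ball x₀ r)
    (ht : ‖t‖ ≤ ρ / 2) {s : ℂ} : s ∈ zs g η ρ (z + t • η) ↔ t + s ∈ zs g η ρ z := by
  have hρ := h.ρ0
  rw [h.mem_zs hz, h.mem_zs hzt]
  have h1 : z + t • η + s • η = z + (t + s) • η := by rw [add_smul, add_assoc]
  rw [h1]
  constructor
  · rintro ⟨h2, h3⟩
    have h4 := h.small hzt (by linarith) (by rw [h1]; exact h3)
    have := norm_add_le t s
    exact ⟨by linarith, h3⟩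
  · rintro ⟨h2, h3⟩
    have h4 := h.small hz (by linarith) h3
    have := norm_sub_le (t + s) t
    rw [add_sub_cancel_left] at this
    exact ⟨by linarith, h3⟩

theorem card_translate {z : E} {t : ℂ} (hz : z ∈ ball x₀ r) (hzt : z + t • η ∈ ball x₀ r)
    (ht : ‖t‖ ≤ ρ / 2) : (zs g η ρ (z + t • η)).card = (zs g η ρ z).card := by
  refine Finset.card_bij (fun s _ => t + s) ?_ ?_ ?_
  · intro s hs
    exact (h.zs_translate hz hzt ht).1 hs
  · intro a _ b _ hab
    exact add_left_cancel hab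
  · intro b hb
    refine ⟨b - t, (h.zs_translate hz hzt ht).2 (by rwa [add_sub_cancel]), by ring⟩

omit h in
/-- a separation radius for a finite set -/
theorem _root_.Vale.Agent.P281.H303.Gen.exists_sep (Z : Finset ℂ) {δ : ℝ} (hδ : 0 < δ) :
    ∃ ε : ℝ, 0 < ε ∧ ε ≤ δ ∧ ∀ t ∈ Z, ∀ t' ∈ Z, t ≠ t' → 2 * ε < ‖t - t'‖ := by
  classical
  set S : Finset ℝ := insert δ (((Z ×ˢ Z).filter fun p => p.1 ≠ p.2).image
    fun p => ‖p.1 - p.2‖ / 3) with hS
  have hSne : S.Nonempty := Finset.insert_nonempty _ _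
  have hpos : ∀ a ∈ S, 0 < a := by
    intro a ha
    rw [hS, Finset.mem_insert] at ha
    rcases ha with rfl | ha
    · exact hδ
    · obtain ⟨p, hp, rfl⟩ := Finset.mem_image.1 ha
      have := (Finset.mem_filter.1 hp).2
      have : 0 < ‖p.1 - p.2‖ := norm_pos_iff.2 (sub_ne_zero.2 this)
      positivity
  refine ⟨S.min' hSne, hpos _ (S.min'_mem hSne), S.min'_le _ (Finset.mem_insert_self _ _), ?_⟩
  intro t ht t' ht' hne
  have h1 : S.min' hSne ≤ ‖t - t'‖ / 3 := S.min'_le _ (Finset.mem_insert_of_mem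
    (Finset.mem_image.2 ⟨(t, t'), Finset.mem_filter.2 ⟨Finset.mem_product.2 ⟨ht, ht'⟩, hne⟩, rfl⟩))
  have h2 := hpos _ (S.min'_mem hSne)
  linarith

/-- Where the number of zeros is maximal, the zeros are holomorphic functions. -/
theorem roots {N : ℕ} (hN : ∀ z ∈ ball x₀ r, (zs g η ρ z).card ≤ N) {z₁ : E}
    (hz₁ : z₁ ∈ ball x₀ r) (hc : (zs g η ρ z₁).card = N) :
    ∃ τ : ℂ → E → ℂ, (∀ t ∈ zs g η ρ z₁, AnalyticAt ℂ (τ t) z₁ ∧ τ t z₁ = t) ∧
      ∀ᶠ z in 𝓝 z₁, zs g η ρ z = (zs g η ρ z₁).image (fun t => τ t z) ∧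
        Set.InjOn (fun t => τ t z) (zs g η ρ z₁) := by
  classical
  have : CompleteSpace E := FiniteDimensional.complete ℂ E
  have hρ := h.ρ0
  obtain ⟨ε, hε, hερ, hsep⟩ := exists_sep (zs g η ρ z₁) (show 0 < ρ / 4 by positivity)
  set Z₁ := zs g η ρ z₁ with hZ₁
  have hsm : ∀ t ∈ Z₁, ∀ s : ℂ, ‖s - t‖ ≤ ε → ‖s‖ < 3 * ρ / 4 := by
    intro t ht s hs
    have h1 := h.small_zs hz₁ ht
    have h2 := norm_add_le (s - t) t
    rw [sub_add_cancel] at h2
    linarith
  have hnz : ∀ t ∈ Z₁, ∀ s : ℂ, ‖s - t‖ ≤ ε → s ≠ t → g (z₁ + s • η) ≠ 0 := by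
    intro t ht s hs hst h0
    have h1 : s ∈ Z₁ := (h.mem_zs hz₁).2 ⟨by linarith [hsm t ht s hs], h0⟩
    have h2 := hsep s h1 t ht hst
    linarith
  -- the tube around the circle
  have htube : ∀ t ∈ Z₁, ∃ (U : Set E) (W : Set ℂ), IsOpen U ∧ IsOpen W ∧ z₁ ∈ U ∧
      sphere t ε ⊆ W ∧ ∀ z ∈ U, ∀ s ∈ W, AnalyticAt ℂ g (z + s • η) ∧ g (z + s • η) ≠ 0 := by
    intro t ht
    set O : Set (E × ℂ) := {q | AnalyticAt ℂ g (q.1 + q.2 • η) ∧ g (q.1 + q.2 • η) ≠ 0} with hO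
    have hOo : IsOpen O := by
      rw [isOpen_iff_mem_nhds]
      rintro ⟨z, s⟩ ⟨h1, h2⟩
      have hcont : ContinuousAt (fun q : E × ℂ => q.1 + q.2 • η) (z, s) := by fun_prop
      have h3 := h1.eventually_analyticAt.and (h1.continuousAt.eventually_ne h2)
      exact hcont.eventually h3
    obtain ⟨U, W, hU, hW, h1, h2, h3⟩ := generalized_tube_lemma (isCompact_singleton (x := z₁))
      (isCompact_sphere t ε) hOo (by
        rintro ⟨z, s⟩ ⟨hz, hs⟩
        rw [mem_singleton_iff] at hz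
        simp only at hz hs
        subst hz
        rw [mem_sphere_iff_norm] at hs
        refine ⟨(h.an z hz₁ s (by linarith [hsm t ht s hs.le])).1, hnz t ht s hs.le ?_⟩
        rintro rfl
        rw [sub_self, norm_zero] at hs
        linarith)
    exact ⟨U, W, hU, hW, h1 rfl, h2, fun z hz s hs => by
      have h4 : (z, s) ∈ O := h3 (mk_mem_prod hz hs)
      exact h4⟩
  choose! U W hU hW hz₁U hWs hUW using htube
  set τ : ℂ → E → ℂ := fun t z => psum g η t ε 1 z / psum g η t ε 0 z with hτ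
  have hev : ∀ᶠ z in 𝓝 z₁, z ∈ ball x₀ r ∧ ∀ t ∈ Z₁,
      (∃ s : ℂ, ‖s - t‖ < ε ∧ g (z + s • η) = 0) ∧ z ∈ U t := by
    have hb : ∀ᶠ z in 𝓝 z₁, z ∈ ball x₀ r := isOpen_ball.mem_nhds hz₁
    refine hb.and ?_
    rw [Filter.eventually_all_finset]
    intro t ht
    refine Filter.Eventually.and ?_ ((hU t ht).mem_nhds (hz₁U t ht))
    refine zero_persists hε ?_ ((h.mem_zs hz₁).1 ht).2 ?_
    · intro s hs
      have h1 := (h.an z₁ hz₁ s (by linarith [hsm t ht s hs])).1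
      exact h1.eventually_analyticAt.mono fun y hy => hy.differentiableAt
    · intro s hs
      refine hnz t ht s hs.le ?_
      rintro rfl
      rw [sub_self, norm_zero] at hs
      linarith
  -- the description of the zeros
  have key : ∀ z, (z ∈ ball x₀ r ∧ ∀ t ∈ Z₁,
      (∃ s : ℂ, ‖s - t‖ < ε ∧ g (z + s • η) = 0) ∧ z ∈ U t) →
      (∀ t ∈ Z₁, τ t z ∈ zs g η ρ z ∧ ‖τ t z - t‖ < ε ∧ psum g η t ε 0 z ≠ 0) ∧
      zs g η ρ z = Z₁.image (fun t => τ t z) ∧ Set.InjOn (fun t => τ t z) Z₁ := by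
    rintro z ⟨hz, hzt⟩
    choose! s hs using fun t ht => (hzt t ht).1
    have hsz : ∀ t ∈ Z₁, s t ∈ zs g η ρ z := fun t ht =>
      (h.mem_zs hz).2 ⟨by linarith [hsm t ht (s t) (hs t ht).1.le], (hs t ht).2⟩
    have hinj : Set.InjOn s Z₁ := by
      intro t ht t' ht' heq
      by_contra hne
      have h1 := hsep t ht t' ht' hne
      have h2 := (hs t ht).1
      have h3 := (hs t' ht').1
      have h4 := norm_sub_le_norm_sub_add_norm_sub t (s t) t'
      rw [norm_sub_rev t (s t)] at h4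
      rw [← heq] at h3
      linarith
    have himg : Z₁.image s = zs g η ρ z := by
      refine Finset.eq_of_subset_of_card_le ?_ ?_
      · intro a ha
        obtain ⟨t, ht, rfl⟩ := Finset.mem_image.1 ha
        exact hsz t ht
      · rw [Finset.card_image_of_injOn hinj, hc]
        exact hN z hz
    have hτs : ∀ t ∈ Z₁, τ t z = s t ∧ psum g η t ε 0 z ≠ 0 := by
      intro t ht
      obtain ⟨m, hm, hk⟩ := psum_eq (g := g) (η := η) (a := t) (z := z) hε (U := ball 0 (6 * ρ))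
        isOpen_ball (by
          intro s hs
          rw [mem_closedBall_iff_norm] at hs
          rw [mem_ball_zero_iff]
          linarith [hsm t ht s hs]) (by
          intro s hs
          exact (h.an z hz s (by rwa [mem_ball_zero_iff] at hs)).1.differentiableAt) (by
          intro s hs
          exact (hUW t ht z (hzt t ht).2 s (hWs t ht hs)).2) (Z := {s t}) (by
          intro a
          rw [Finset.mem_singleton, mem_ball_iff_norm]
          constructor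
          · rintro rfl
            exact hs t ht
          · rintro ⟨h1, h2⟩
            have h3 : a ∈ zs g η ρ z := (h.mem_zs hz).2 ⟨by linarith [hsm t ht a h1.le], h2⟩
            rw [← himg] at h3
            obtain ⟨t', ht', rfl⟩ := Finset.mem_image.1 h3
            by_contra hne
            have h4 : t ≠ t' := fun h => hne (h ▸ rfl)
            have h5 := hsep t ht t' ht' h4
            have h6 := (hs t' ht').1
            have h7 := norm_sub_le_norm_sub_add_norm_sub t (s t') t'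
            rw [norm_sub_rev t (s t')] at h7
            linarith)
      have hm1 : (m (s t) : ℂ) ≠ 0 := by
        have := hm (s t) (Finset.mem_singleton_self _)
        exact_mod_cast (by omega : m (s t) ≠ 0)
      have h0 := hk 0
      have h1 := hk 1
      rw [Finset.sum_singleton, pow_zero, mul_one] at h0
      rw [Finset.sum_singleton, pow_one] at h1
      refine ⟨?_, by rw [h0]; exact hm1⟩
      simp only [hτ]
      rw [h0, h1, mul_div_cancel_left₀ _ hm1]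
    refine ⟨fun t ht => ?_, ?_, ?_⟩
    · rw [(hτs t ht).1]
      exact ⟨hsz t ht, (hs t ht).1, (hτs t ht).2⟩
    · rw [← himg]
      exact Finset.image_congr fun t ht => (hτs t ht).1.symm
    · exact hinj.congr fun t ht => (hτs t ht).1.symm
  refine ⟨τ, fun t ht => ?_, hev.mono fun z hz => (key z hz).2⟩
  have h1 := (key z₁ hev.self_of_nhds).1 t ht
  refine ⟨?_, ?_⟩
  · have h2 : ∀ k, AnalyticAt ℂ (psum g η t ε k) z₁ := fun k =>
      analyticAt_of_differentiableOn (hU t ht)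
        (psum_diff hε (hU t ht) (hW t ht) (hWs t ht) (hUW t ht) k) (hz₁U t ht)
    exact (h2 1).div (h2 0) h1.2.2
  · by_contra hne
    have h2 := hsep _ h1.1 t ht hne
    linarith [h1.2.1]

end Rad

end Vale.Agent.P281.H303.Gen
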